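import Vale.Agent.P070.Diag

/-!
P070: the dyadic tower inside the operators on the sequence space, with its base representation.
-/

noncomputable section

open Filter Topology
open scoped InnerProductSpace ENNReal

namespace Vale.Agent.P070.Base

variable {n k : ℕ}

/-- position inside a block -/
def low (n m : ℕ) : Fin (2 ^ n) := ⟨m % 2 ^ n, Nat.mod_lt _ (Nat.two_pow_pos n)⟩

/-- the first coordinate of a level -/
def o (n : ℕ) : Fin (2 ^ n) := ⟨0, Nat.two_pow_pos n⟩

/-- the coordinate vectors of the blocks -/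
def vec (n m : ℕ) : lp (fun _ : ℕ => Euc n) 2 :=
  lp.single 2 (m / 2 ^ n) (EuclideanSpace.single (low n m) (1 : ℂ))

lemma inner_vec (n m : ℕ) (y : lp (fun _ : ℕ => Euc n) 2) :
    ⟪vec n m, y⟫_ℂ = y (m / 2 ^ n) (low n m) := by
  rw [vec, lp.inner_single_left, EuclideanSpace.inner_single_left]
  simp

lemma low_eq {n m : ℕ} {s : Fin (2 ^ n)} {b : ℕ} (h : m = s + 2 ^ n * b) :
    m / 2 ^ n = b ∧ low n m = s := by
  subst h
  refine ⟨?_, Fin.ext ?_⟩
  · rw [Nat.add_mul_div_left _ _ (Nat.two_pow_pos n), Nat.div_eq_of_lt s.isLt, zero_add]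
  · show (s.val + 2 ^ n * b) % 2 ^ n = s.val
    rw [Nat.add_mul_mod_self_left, Nat.mod_eq_of_lt s.isLt]

lemma eq_low_add (n m : ℕ) : m = (low n m).val + 2 ^ n * (m / 2 ^ n) :=
  (Nat.mod_add_div m (2 ^ n)).symm

lemma orthonormal_vec (n : ℕ) : Orthonormal ℂ (vec n) := by
  classical
  rw [orthonormal_iff_ite]
  intro i j
  rw [inner_vec, vec]
  rcases eq_or_ne i j with rfl | h
  · simp
  · rw [if_neg h]
    rcases eq_or_ne (i / 2 ^ n) (j / 2 ^ n) with e | e
    · rw [← e, lp.single_apply_self]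
      have hne : low n i ≠ low n j := fun e' => h <| by
        rw [eq_low_add n i, eq_low_add n j, e, e']
      simp [hne]
    · rw [lp.single_apply_ne _ _ _ e]
      rfl

lemma vec_total (n : ℕ) : (Submodule.span ℂ (Set.range (vec n)))ᗮ = ⊥ := by
  rw [Submodule.eq_bot_iff]
  intro y hy
  ext b : 2
  ext s
  have h := hy (vec n (s + 2 ^ n * b)) (Submodule.subset_span ⟨_, rfl⟩)
  rw [inner_vec, (low_eq rfl).1, (low_eq rfl).2] at h
  exact h

/-- the sequence space cut into blocks of length `2 ^ n` -/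
def unblk (n : ℕ) : lp (fun _ : ℕ => Euc n) 2 ≃ₗᵢ[ℂ] E2 :=
  (HilbertBasis.mkOfOrthogonalEqBot (orthonormal_vec n) (vec_total n)).repr

lemma unblk_apply (n : ℕ) (y : lp (fun _ : ℕ => Euc n) 2) (m : ℕ) :
    unblk n y m = y (m / 2 ^ n) (low n m) := by
  rw [unblk, HilbertBasis.repr_apply_apply, HilbertBasis.coe_mkOfOrthogonalEqBot, inner_vec]

lemma blk_apply (n : ℕ) (x : E2) (b : ℕ) (s : Fin (2 ^ n)) :
    (unblk n).symm x b s = x (s + 2 ^ n * b) := by
  conv_rhs => rw [← (unblk n).apply_symm_apply x]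
  rw [unblk_apply, (low_eq rfl).1, (low_eq rfl).2]

/-- the level representation: the same matrix on every block -/
def lev (n : ℕ) : (Euc n →L[ℂ] Euc n) →⋆ₐ[ℂ] (E2 →L[ℂ] E2) :=
  (unblk n).conjStarAlgEquiv.toStarAlgHom.comp
    (diag fun _ : ℕ => StarAlgHom.id ℂ (Euc n →L[ℂ] Euc n))

lemma lev_unblk (T : Euc n →L[ℂ] Euc n) (y : lp (fun _ : ℕ => Euc n) 2) :
    lev n T (unblk n y) = unblk n (diag (fun _ : ℕ => StarAlgHom.id ℂ _) T y) := by
  show unblk n (diag _ T ((unblk n).symm (unblk n y))) = _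
  rw [LinearIsometryEquiv.symm_apply_apply]

lemma lev_apply (T : Euc n →L[ℂ] Euc n) (x : E2) (m : ℕ) :
    lev n T x m = T ((unblk n).symm x (m / 2 ^ n)) (low n m) := by
  show unblk n (diag _ T ((unblk n).symm x)) m = _
  rw [unblk_apply, diag_apply]
  rfl

/-- inclusion of the first block -/
def emb (n : ℕ) (u : Euc n) : E2 := unblk n (lp.single 2 0 u)

lemma lev_emb (T : Euc n →L[ℂ] Euc n) (u : Euc n) : lev n T (emb n u) = emb n (T u) := by
  rw [emb, lev_unblk, diag_single]
  rfl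

lemma emb_single (n : ℕ) (s : Fin (2 ^ n)) (c : ℂ) :
    emb n (EuclideanSpace.single s c) = lp.single 2 (s : ℕ) c := by
  ext m
  rw [emb, unblk_apply]
  rcases eq_or_ne m (s : ℕ) with h | h
  · obtain ⟨h1, h2⟩ := low_eq (s := s) (b := 0) (show m = s + 2 ^ n * 0 by simpa using h)
    rw [h1, h2, lp.single_apply_self, h, lp.single_apply_self]
    simp
  · rw [lp.single_apply_ne _ _ _ h]
    rcases eq_or_ne (m / 2 ^ n) 0 with h0 | h0
    · have hne : low n m ≠ s := fun e => h <| by rw [eq_low_add n m, h0, e, mul_zero, add_zero]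
      simp [h0, hne]
    · rw [lp.single_apply_ne _ _ _ h0]
      rfl

lemma lev_inj (n : ℕ) : Function.Injective (lev n) := by
  intro T T' h
  ext u : 1
  have := congrArg (fun S : E2 →L[ℂ] E2 => S (emb n u)) h
  rw [lev_emb, lev_emb] at this; unfold emb at this
  have h2 := congrArg (fun y : lp (fun _ : ℕ => Euc n) 2 => y 0) ((unblk n).injective this)
  simpa using h2

/-! ### Doubling -/

/-- two halves of the next level -/
def halves (n : ℕ) : Euc (n + 1) ≃ₗ[ℂ] Euc n × Euc n where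
  toFun y := (WithLp.toLp 2 fun s => y ⟨s, by have := s.isLt; have := pow_succ 2 n; omega⟩,
    WithLp.toLp 2 fun s => y ⟨2 ^ n + s, by have := s.isLt; have := pow_succ 2 n; omega⟩)
  invFun uv := WithLp.toLp 2 fun s =>
    if h : (s : ℕ) < 2 ^ n then uv.1 ⟨s, h⟩
    else uv.2 ⟨s - 2 ^ n, by have := s.isLt; have := pow_succ 2 n; omega⟩
  map_add' _ _ := rfl
  map_smul' _ _ := rfl
  left_inv y := by
    ext s
    dsimp
    split_ifs with h
    · rfl
    · exact congrArg y.ofLp (Fin.ext (show 2 ^ n + (s.val - 2 ^ n) = s.val by omega))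
  right_inv uv := by
    refine Prod.ext ?_ ?_ <;> ext s <;> dsimp
    · rw [dif_pos s.isLt]
    · rw [dif_neg (by omega)]
      exact congrArg uv.2.ofLp (Fin.ext (show 2 ^ n + s.val - 2 ^ n = s.val by omega))

/-- a matrix twice along the diagonal -/
def double (T : Euc n →L[ℂ] Euc n) : Euc (n + 1) →L[ℂ] Euc (n + 1) :=
  LinearMap.toContinuousLinearMap
    ((halves n).symm.toLinearMap ∘ₗ ((T : Euc n →ₗ[ℂ] Euc n).prodMap (T : Euc n →ₗ[ℂ] Euc n)) ∘ₗ
      (halves n).toLinearMap)

lemma lev_double (T : Euc n →L[ℂ] Euc n) : lev (n + 1) (double T) = lev n T := by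
  ext x m
  rw [lev_apply, lev_apply]
  set q := m / 2 ^ (n + 1)
  set r := low (n + 1) m with hr
  have hm := eq_low_add (n + 1) m
  have hrlt : (r : ℕ) < 2 ^ n * 2 := lt_of_lt_of_eq r.isLt (pow_succ 2 n)
  show (halves n).symm (T (halves n ((unblk (n + 1)).symm x q)).1,
    T (halves n ((unblk (n + 1)).symm x q)).2) r = _
  by_cases h : (r : ℕ) < 2 ^ n
  · obtain ⟨h1, h2⟩ := low_eq (s := ⟨r, h⟩) (b := 2 * q)
      (show m = r + 2 ^ n * (2 * q) by rw [hr, ← mul_assoc, ← pow_succ]; exact hm)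
    rw [h1, h2]
    rw [show ∀ uv : Euc n × Euc n, (halves n).symm uv r = uv.1 ⟨r, h⟩ from fun uv => dif_pos h]
    refine congrArg (fun z : Euc n => T z _) ?_
    ext s
    rw [blk_apply]
    show (unblk (n + 1)).symm x q _ = _
    rw [blk_apply]
    refine congrArg (fun i => x i) ?_
    show s.val + 2 ^ (n + 1) * q = _
    rw [pow_succ]; ring
  · obtain ⟨h1, h2⟩ := low_eq (s := ⟨r - 2 ^ n, by omega⟩) (b := 2 * q + 1)
      (show m = (r - 2 ^ n) + 2 ^ n * (2 * q + 1) by
        have e : 2 ^ (n + 1) * q = 2 ^ n * (2 * q) := by rw [pow_succ]; ring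
        have := hm
        rw [← hr, show m / 2 ^ (n + 1) = q from rfl, e] at this
        rw [mul_add, mul_one]
        omega)
    rw [h1, h2]
    rw [show ∀ uv : Euc n × Euc n, (halves n).symm uv r = uv.2 ⟨r - 2 ^ n, by omega⟩ from
      fun uv => dif_neg h]
    refine congrArg (fun z : Euc n => T z _) ?_
    ext s
    rw [blk_apply]
    show (unblk (n + 1)).symm x q _ = _
    rw [blk_apply]
    refine congrArg (fun i => x i) ?_
    show 2 ^ n + s.val + 2 ^ (n + 1) * q = _
    rw [pow_succ]; ring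

lemma rk_double (T : Euc n →L[ℂ] Euc n) : rk (double T) = 2 * rk T := by
  unfold rk double
  rw [LinearMap.coe_toContinuousLinearMap, LinearMap.range_comp, LinearEquiv.finrank_map_eq,
    LinearMap.range_comp, LinearEquiv.range, Submodule.map_top, LinearMap.range_prodMap]
  rw [show 2 * Module.finrank ℂ (LinearMap.range (T : Euc n →ₗ[ℂ] Euc n)) =
    Module.finrank ℂ (LinearMap.range (T : Euc n →ₗ[ℂ] Euc n) ×
      LinearMap.range (T : Euc n →ₗ[ℂ] Euc n)) by rw [Module.finrank_prod, two_mul]]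
  exact LinearEquiv.finrank_eq
    { toFun := fun x => (⟨x.1.1, x.2.1⟩, ⟨x.1.2, x.2.2⟩)
      invFun := fun y => ⟨(y.1.1, y.2.1), y.1.2, y.2.2⟩
      map_add' := fun _ _ => rfl
      map_smul' := fun _ _ => rfl
      left_inv := fun _ => rfl
      right_inv := fun _ => rfl }

/-! ### The algebra -/

lemma range_mono : Monotone fun n => (lev n).range := by
  refine monotone_nat_of_le_succ fun n => ?_
  rintro _ ⟨T, rfl⟩
  exact ⟨double T, lev_double T⟩

/-- the closed union of the levels -/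
def alg : StarSubalgebra ℂ (E2 →L[ℂ] E2) := (⨆ n, (lev n).range).topologicalClosure

instance isClosed_alg : IsClosed (alg : Set (E2 →L[ℂ] E2)) :=
  StarSubalgebra.isClosed_topologicalClosure _

lemma lev_mem (n : ℕ) (T : Euc n →L[ℂ] Euc n) : lev n T ∈ alg :=
  StarSubalgebra.le_topologicalClosure _ (le_iSup (fun n => (lev n).range) n ⟨T, rfl⟩)

/-- the levels of the tower -/
def phi (n : ℕ) : (Euc n →L[ℂ] Euc n) →⋆ₐ[ℂ] alg := (lev n).codRestrict alg (lev_mem n)

lemma phi_dense : Dense (⋃ n, Set.range (phi n)) := by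
  rw [Subtype.dense_iff]
  intro a ha
  change a ∈ closure ((⨆ n, (lev n).range : StarSubalgebra ℂ _) : Set (E2 →L[ℂ] E2)) at ha
  rw [StarSubalgebra.coe_iSup_of_directed range_mono.directed_le] at ha
  refine closure_mono ?_ ha
  refine Set.iUnion_subset fun n => ?_
  rintro _ ⟨T, rfl⟩
  exact ⟨phi n T, Set.mem_iUnion.2 ⟨n, T, rfl⟩, rfl⟩

lemma Pk_apply (n k : ℕ) (u : Euc n) (s : Fin (2 ^ n)) :
    Pk n k u s = if 2 ^ k ∣ (s : ℕ) then u s else 0 := by
  rw [Pk, Matrix.ofLp_toEuclideanCLM, Matrix.mulVec_diagonal]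
  split_ifs <;> simp

lemma lev_Pk (h : k ≤ n) (x : E2) (m : ℕ) :
    lev n (Pk n k) x m = if 2 ^ k ∣ m then x m else 0 := by
  rw [lev_apply, Pk_apply, blk_apply, ← eq_low_add n m]
  refine if_congr (Nat.dvd_mod_iff (Nat.pow_dvd_pow 2 h)) rfl rfl

/-- the standard projections -/
def proj (k : ℕ) : alg := phi k (Pk k k)

lemma phi_Pk (h : k ≤ n) : phi n (Pk n k) = proj k := by
  apply Subtype.ext
  show lev n (Pk n k) = lev k (Pk k k)
  ext x m
  rw [lev_Pk h, lev_Pk le_rfl]

/-- the tower -/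
def tower : Tower alg where
  φ := phi
  φ_inj := fun n _ _ h => lev_inj n (congrArg Subtype.val h)
  φ_up := fun _ T => ⟨double T, Subtype.ext (lev_double T), rk_double T⟩
  dense := phi_dense
  p := proj
  p_spec := fun _ _ h => phi_Pk h

/-! ### The base representation -/

/-- the inclusion -/
def incl : alg →⋆ₐ[ℂ] (E2 →L[ℂ] E2) := alg.subtype

/-- the rank one matrix taking coordinate `t` to coordinate `s` -/
def unit (s t : Fin (2 ^ n)) : Euc n →L[ℂ] Euc n :=
  (EuclideanSpace.proj t).smulRight (EuclideanSpace.single s (1 : ℂ))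

lemma lev_unit_single (s t : Fin (2 ^ n)) (m : ℕ) (hm : m < 2 ^ n) (c : ℂ) :
    lev n (unit s t) (lp.single 2 m c) =
      (if m = (t : ℕ) then c else 0) • lp.single 2 (s : ℕ) (1 : ℂ) := by
  have e := emb_single n ⟨m, hm⟩ c
  rw [show ((⟨m, hm⟩ : Fin (2 ^ n)) : ℕ) = m from rfl] at e
  rw [← e, lev_emb]
  have hu : unit s t (EuclideanSpace.single (⟨m, hm⟩ : Fin (2 ^ n)) c) =
      EuclideanSpace.single s (if m = (t : ℕ) then c else 0) := by
    ext r
    simp only [unit, ContinuousLinearMap.smulRight_apply, PiLp.proj_apply]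
    rcases eq_or_ne (⟨m, hm⟩ : Fin (2 ^ n)) t with h | h
    · subst h
      simp
    · simp [h.symm, show m ≠ (t : ℕ) from fun h' => h (Fin.ext h')]
  rw [hu, emb_single, ← lp.single_smul, smul_eq_mul, mul_one]

lemma norm_lev_unit (s t : Fin (2 ^ n)) : ‖lev n (unit s t)‖ ≤ 1 := by
  refine (NonUnitalStarAlgHom.norm_apply_le (lev n) _).trans ?_
  refine ContinuousLinearMap.opNorm_le_bound _ zero_le_one fun u => ?_
  simp only [unit, ContinuousLinearMap.smulRight_apply, norm_smul, PiLp.norm_single, norm_one,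
    mul_one, one_mul]
  exact PiLp.norm_apply_le u t

lemma irred_incl : Irred incl := by
  refine ⟨⟨1, fun h => ?_⟩, fun V hV hinv => ?_⟩
  · rw [map_one] at h
    have := congrArg (fun S : E2 →L[ℂ] E2 => S (lp.single 2 0 (1 : ℂ)) 0) h
    simp at this
  by_cases hb : V = ⊥
  · exact Or.inl hb
  right
  obtain ⟨x, hxV, hx⟩ := Submodule.exists_mem_ne_zero_of_ne_bot hb
  obtain ⟨t, ht⟩ : ∃ t, x t ≠ 0 := by
    by_contra h
    push Not at h
    exact hx (lp.ext (funext h))
  have hlev : ∀ n (T : Euc n →L[ℂ] Euc n), ∀ y ∈ V, lev n T y ∈ V :=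
    fun n T y hy => hinv (phi n T) y hy
  have he0 : (lp.single 2 0 (1 : ℂ) : E2) ∈ V := by
    have hsum := (lp.hasSum_single (by simp) x).tendsto_sum_nat
    have hlim : Tendsto (fun n => lev n (unit (o n) (low n t)) x) atTop
        (𝓝 (x t • (lp.single 2 0 (1 : ℂ) : E2))) := by
      rw [Metric.tendsto_atTop]
      intro ε hε
      obtain ⟨N, hN⟩ := Metric.tendsto_atTop.1 hsum (ε / 2) (by linarith)
      refine ⟨N + t + 1, fun n hn => ?_⟩
      have hn2 : n < 2 ^ n := Nat.lt_two_pow_self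
      set x' := ∑ i ∈ Finset.range (N + t + 1), (lp.single 2 i (x i) : E2) with hx'
      have e : lev n (unit (o n) (low n t)) x' = x t • (lp.single 2 0 (1 : ℂ) : E2) := by
        rw [hx', map_sum, Finset.sum_eq_single t]
        · rw [lev_unit_single _ _ _ (by omega)]
          simp [low, o, Nat.mod_eq_of_lt (show t < 2 ^ n by omega)]
        · intro i hi hit
          rw [lev_unit_single _ _ _ (by have := Finset.mem_range.1 hi; omega)]
          simp [low, hit, Nat.mod_eq_of_lt (show t < 2 ^ n by omega)]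
        · intro h
          exact absurd (Finset.mem_range.2 (by omega)) h
      rw [dist_eq_norm, ← e, ← map_sub]
      refine lt_of_le_of_lt ((ContinuousLinearMap.le_opNorm _ _).trans
        (mul_le_of_le_one_left (norm_nonneg _) (norm_lev_unit _ _))) ?_
      rw [← dist_eq_norm, dist_comm]
      linarith [hN (N + t + 1) (by omega)]
    have hmem := hV.mem_of_tendsto hlim (Eventually.of_forall fun n => hlev n _ x hxV)
    simpa [ht] using V.smul_mem (x t)⁻¹ hmem
  have hes : ∀ s (c : ℂ), (lp.single 2 s c : E2) ∈ V := fun s c => by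
    have hs : s < 2 ^ s := Nat.lt_two_pow_self
    have h := V.smul_mem c (hlev s (unit ⟨s, hs⟩ (o s)) _ he0)
    rw [lev_unit_single _ _ _ (Nat.two_pow_pos s)] at h
    simpa [o, ← lp.single_smul] using h
  rw [eq_top_iff]
  intro y _
  exact hV.mem_of_tendsto (lp.hasSum_single (by simp) y).tendsto_sum_nat
    (Eventually.of_forall fun n => V.sum_mem fun i _ => hes i _)

lemma proj_single (k : ℕ) : (proj k).1 (lp.single 2 0 (1 : ℂ)) = lp.single 2 0 1 := by
  ext m
  show lev k (Pk k k) _ m = _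
  rw [lev_Pk le_rfl]
  rcases eq_or_ne m 0 with rfl | h
  · simp
  · rw [lp.single_apply_ne _ _ _ h]
    simp

lemma norm_proj_le (k : ℕ) : ‖proj k‖ ≤ 1 := by
  refine (NonUnitalStarAlgHom.norm_apply_le (phi k) _).trans ?_
  refine ContinuousLinearMap.opNorm_le_bound _ zero_le_one fun u => ?_
  rw [one_mul, EuclideanSpace.norm_eq, EuclideanSpace.norm_eq]
  refine Real.sqrt_le_sqrt (Finset.sum_le_sum fun s _ => ?_)
  rw [Pk_apply]
  split_ifs <;> simp

lemma exc_level (T : Euc n →L[ℂ] Euc n) (h : n ≤ k) :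
    proj k * phi n T * proj k =
      ⟪(lp.single 2 0 (1 : ℂ) : E2), lev n T (lp.single 2 0 1)⟫_ℂ • proj k := by
  apply Subtype.ext
  ext x m
  show lev k (Pk k k) (lev n T (lev k (Pk k k) x)) m =
    ⟪(lp.single 2 0 (1 : ℂ) : E2), lev n T (lp.single 2 0 1)⟫_ℂ * lev k (Pk k k) x m
  rw [lev_Pk le_rfl, lev_Pk le_rfl]
  by_cases hm : 2 ^ k ∣ m
  · rw [if_pos hm, if_pos hm]
    have hnk : 2 ^ n ∣ 2 ^ k := Nat.pow_dvd_pow 2 h
    obtain ⟨b, rfl⟩ := hnk.trans hm
    have hl : ∀ b, 2 ^ n * b / 2 ^ n = b ∧ low n (2 ^ n * b) = o n := fun b =>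
      low_eq (s := o n) (by simp [o])
    have e : (unblk n).symm (lev k (Pk k k) x) b =
        x (2 ^ n * b) • EuclideanSpace.single (o n) (1 : ℂ) := by
      ext s
      rw [blk_apply, lev_Pk le_rfl]
      rcases eq_or_ne s (o n) with rfl | hs
      · simp [o, hm]
      · rw [if_neg]
        · simp [hs]
        · intro hd
          have h2 : 2 ^ n ∣ (s : ℕ) := (Nat.dvd_add_left (dvd_mul_right _ b)).1 (hnk.trans hd)
          exact hs (Fin.ext (by simpa [o] using Nat.eq_zero_of_dvd_of_lt h2 s.isLt))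
    have hc : ⟪(lp.single 2 0 (1 : ℂ) : E2), lev n T (lp.single 2 0 1)⟫_ℂ =
        T (EuclideanSpace.single (o n) 1) (o n) := by
      rw [show (lp.single 2 0 (1 : ℂ) : E2) = emb n (EuclideanSpace.single (o n) 1) from
        (emb_single n (o n) 1).symm, lev_emb, emb, emb, LinearIsometryEquiv.inner_map_map,
        lp.inner_single_left, lp.single_apply_self, EuclideanSpace.inner_single_left]
      simp
    rw [lev_apply, (hl b).1, (hl b).2, e, hc, map_smul]
    simp [mul_comm]
  · rw [if_neg hm, if_neg hm, mul_zero]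

lemma exc_all (a : alg) : Tendsto
    (fun k => ‖proj k * a * proj k -
      ⟪(lp.single 2 0 (1 : ℂ) : E2), incl a (lp.single 2 0 1)⟫_ℂ • proj k‖) atTop (𝓝 0) := by
  set e0 : E2 := lp.single 2 0 (1 : ℂ) with he
  have h1 : ‖e0‖ = 1 := by rw [he, lp.norm_single (by norm_num), norm_one]
  rw [Metric.tendsto_atTop]
  intro ε hε
  obtain ⟨b, hb, hab⟩ := Metric.mem_closure_iff.1 (phi_dense a) (ε / 3) (by linarith)
  obtain ⟨n, T, rfl⟩ := Set.mem_iUnion.1 hb
  rw [dist_eq_norm] at hab
  refine ⟨n, fun k hk => ?_⟩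
  rw [dist_zero_right, norm_norm]
  have e : proj k * a * proj k - ⟪e0, incl a e0⟫_ℂ • proj k =
      proj k * (a - phi n T) * proj k - ⟪e0, incl (a - phi n T) e0⟫_ℂ • proj k := by
    have hp := exc_level T hk
    rw [map_sub, sub_apply, inner_sub_right, sub_smul, mul_sub, sub_mul, hp]
    show _ = _ - ((⟪e0, incl a e0⟫_ℂ • proj k) - ⟪e0, lev n T e0⟫_ℂ • proj k)
    abel
  rw [e]
  have hc : ‖⟪e0, incl (a - phi n T) e0⟫_ℂ‖ ≤ ‖a - phi n T‖ := by
    refine (norm_inner_le_norm _ _).trans ?_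
    rw [h1, one_mul]
    refine ((incl (a - phi n T)).le_opNorm _).trans ?_
    rw [h1, mul_one]
    exact NonUnitalStarAlgHom.norm_apply_le incl _
  have hp1 : ‖proj k * (a - phi n T) * proj k‖ ≤ ‖a - phi n T‖ :=
    (norm_mul_le _ _).trans ((mul_le_of_le_one_right (norm_nonneg _) (norm_proj_le k)).trans
      ((norm_mul_le _ _).trans (mul_le_of_le_one_left (norm_nonneg _) (norm_proj_le k))))
  refine (norm_sub_le _ _).trans_lt ?_
  rw [norm_smul]
  linarith [mul_le_of_le_one_right (norm_nonneg (⟪e0, incl (a - phi n T) e0⟫_ℂ))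
    (norm_proj_le k)]

end Base

open Base in
/-- The tower algebra with its base representation. -/
theorem base : BaseStatement :=
  ⟨alg, inferInstance, tower, incl, irred_incl,
    { ξ := lp.single 2 0 1
      norm_ξ := by rw [lp.norm_single (by norm_num), norm_one]
      U := fun _ => 1
      U_mem := fun _ => one_mem _
      U_compat := fun _ _ _ => rfl
      fix := fun k => by simpa using! proj_single k
      exc := fun a => by simpa using! exc_all a },
    fun _ => rfl⟩

end Vale.Agent.P070
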