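import Vale.Agent.P070.Defs

/-! Strong limits of decreasing projections, and gluing compatible unitaries. -/

noncomputable section

open Filter Topology
open scoped InnerProductSpace

namespace Vale.Agent.P070

variable {H : Type*} [NormedAddCommGroup H] [InnerProductSpace ℂ H] [CompleteSpace H]

theorem proj_inner {P : H →L[ℂ] H} (hP : IsStarProjection P) (x y : H) :
    ⟪P x, y⟫_ℂ = ⟪x, P y⟫_ℂ := by
  have h := hP.isSelfAdjoint.star_eq
  rw [ContinuousLinearMap.star_eq_adjoint] at h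
  conv_lhs => rw [← h]
  exact ContinuousLinearMap.adjoint_inner_left P y x

/-- Decreasing projections with one-dimensional (or zero) common range converge strongly. -/
theorem tendsto_proj (P : ℕ → (H →L[ℂ] H)) (hP : ∀ n, IsStarProjection (P n))
    (hmul : ∀ j k, j ≤ k → P j * P k = P k) (ξ : H) (hfix : ∀ n, P n ξ = ξ)
    (huniq : ∀ y, (∀ n, P n y = y) → y = ⟪ξ, y⟫_ℂ • ξ) (x : H) :
    Tendsto (fun n => P n x) atTop (𝓝 (⟪ξ, x⟫_ℂ • ξ)) := by
  have happ : ∀ j k, j ≤ k → P j (P k x) = P k x := fun j k h => by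
    have := congrArg (fun T : H →L[ℂ] H => T x) (hmul j k h)
    simpa using this
  have key : ∀ m n, m ≤ n → ‖P m x - P n x‖ ^ 2 = ‖P m x‖ ^ 2 - ‖P n x‖ ^ 2 := by
    intro m n h
    have hin : ⟪P m x, P n x⟫_ℂ = ⟪P n x, P n x⟫_ℂ := by
      rw [proj_inner (hP m), happ m n h, proj_inner (hP n), happ n n le_rfl]
    rw [@norm_sub_sq ℂ, hin, inner_self_eq_norm_sq]
    ring
  set r : ℕ → ℝ := fun n => ‖P n x‖ ^ 2 with hr
  have hanti : Antitone r := by
    intro m n h
    have := key m n h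
    have h0 := sq_nonneg ‖P m x - P n x‖
    simp only [hr]
    linarith
  have hbd : BddBelow (Set.range r) := ⟨0, by rintro _ ⟨n, rfl⟩; simp only [hr]; positivity⟩
  have hlim := (tendsto_atTop_ciInf hanti hbd).cauchySeq
  have hc : CauchySeq (fun n => P n x) := by
    rw [Metric.cauchySeq_iff']
    intro ε hε
    obtain ⟨N, hN⟩ := Metric.cauchySeq_iff'.1 hlim (ε ^ 2) (by positivity)
    refine ⟨N, fun n hn => ?_⟩
    have h1 := hN n hn
    rw [Real.dist_eq, abs_lt] at h1
    have h2 := key N n hn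
    simp only [hr] at h1
    rw [dist_eq_norm, norm_sub_rev]
    nlinarith [norm_nonneg (P N x - P n x)]
  obtain ⟨y, hy⟩ := cauchySeq_tendsto_of_complete hc
  have hfy : ∀ m, P m y = y := fun m => by
    refine tendsto_nhds_unique (((P m).continuous.tendsto y).comp hy) (hy.congr' ?_)
    filter_upwards [eventually_ge_atTop m] with n hn
    exact (happ m n hn).symm
  have hin : ⟪ξ, y⟫_ℂ = ⟪ξ, x⟫_ℂ := by
    have h1 : Tendsto (fun n => ⟪ξ, P n x⟫_ℂ) atTop (𝓝 ⟪ξ, y⟫_ℂ) := tendsto_const_nhds.inner hy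
    refine tendsto_nhds_unique h1 (tendsto_const_nhds.congr fun n => ?_)
    rw [← proj_inner (hP n), hfix]
  rw [← hin, ← huniq y hfy]
  exact hy

variable (P W : ℕ → (H →L[ℂ] H))

/-- Compatible isometries on the complements, extended by one vector. -/
theorem glue_aux (hP : ∀ n, IsStarProjection (P n)) (hmul : ∀ j k, j ≤ k → P j * P k = P k)
    (ξ : H) (hξ : ‖ξ‖ = 1) (hfix : ∀ n, P n ξ = ξ)
    (huniq : ∀ y, (∀ n, P n y = y) → y = ⟪ξ, y⟫_ℂ • ξ)
    (hW : ∀ n, W n ∈ unitary (H →L[ℂ] H))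
    (hcompat : ∀ j k, j ≤ k → W k * (1 - P j) = W j * (1 - P j))
    (ξ' : H) (hξ' : ‖ξ'‖ = 1) (hfix' : ∀ n, (W n * P n * star (W n)) ξ' = ξ') :
    ∃ v : H →L[ℂ] H, (∀ x, ‖v x‖ = ‖x‖) ∧ (∀ m, v * (1 - P m) = W m * (1 - P m)) ∧
      (∀ m, v * P m = (W m * P m * star (W m)) * v) ∧
      ∀ x, Tendsto (fun n => W n ((1 - P n) x)) atTop (𝓝 (v x - ⟪ξ, x⟫_ℂ • ξ')) := by
  have hnorm : ∀ n x, ‖W n x‖ = ‖x‖ := fun n x => (W n).norm_map_of_mem_unitary (hW n) x
  have hlimP : ∀ x, Tendsto (fun n => (1 - P n) x) atTop (𝓝 (x - ⟪ξ, x⟫_ℂ • ξ)) := fun x => by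
    simpa using (tendsto_proj P hP hmul ξ hfix huniq x).const_sub x
  have hPP : ∀ j k, j ≤ k → P k * P j = P k := fun j k h => by
    have := congrArg star (hmul j k h)
    rwa [star_mul, (hP j).isSelfAdjoint.star_eq, (hP k).isSelfAdjoint.star_eq] at this
  have hdiff : ∀ m n, m ≤ n → ∀ x,
      W n ((1 - P n) x) - W m ((1 - P m) x) = W n (P m x - P n x) := by
    intro m n h x
    have := congrArg (fun T : H →L[ℂ] H => T x) (hcompat m n h)
    simp only [mul_apply_eq_comp] at this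
    rw [← this, ← map_sub]
    congr 1
    simp
  have hc : ∀ x, CauchySeq (fun n => W n ((1 - P n) x)) := by
    intro x
    have hcp := (tendsto_proj P hP hmul ξ hfix huniq x).cauchySeq
    rw [Metric.cauchySeq_iff'] at hcp ⊢
    intro ε hε
    obtain ⟨N, hN⟩ := hcp ε hε
    refine ⟨N, fun n hn => ?_⟩
    have := hN n hn
    rw [dist_eq_norm] at this ⊢
    rwa [hdiff N n hn x, hnorm, norm_sub_rev]
  choose T0 hT0 using fun x => cauchySeq_tendsto_of_complete (hc x)
  have hT0n : ∀ x, ‖T0 x‖ = ‖x - ⟪ξ, x⟫_ℂ • ξ‖ := fun x => by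
    refine tendsto_nhds_unique (hT0 x).norm ((hlimP x).norm.congr fun n => ?_)
    rw [hnorm]
  let T : H →ₗ[ℂ] H :=
    { toFun := fun x => T0 x + ⟪ξ, x⟫_ℂ • ξ'
      map_add' := fun x y => by
        have h : T0 (x + y) = T0 x + T0 y :=
          tendsto_nhds_unique (hT0 (x + y)) (((hT0 x).add (hT0 y)).congr fun n => by simp; abel)
        rw [h, inner_add_right, add_smul]
        abel
      map_smul' := fun c x => by
        have h : T0 (c • x) = c • T0 x :=
          tendsto_nhds_unique (hT0 (c • x)) (((hT0 x).const_smul c).congr fun n => by simp)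
        simp [h, smul_add, smul_smul] }
  have horth : ∀ x, ⟪T0 x, ξ'⟫_ℂ = 0 := fun x => by
    have h1 : Tendsto (fun n => ⟪W n ((1 - P n) x), ξ'⟫_ℂ) atTop (𝓝 ⟪T0 x, ξ'⟫_ℂ) :=
      (hT0 x).inner tendsto_const_nhds
    refine tendsto_nhds_unique h1 (tendsto_const_nhds.congr fun n => ?_)
    rw [← hfix' n]
    simp only [mul_apply_eq_comp]
    rw [ContinuousLinearMap.inner_map_map_of_mem_unitary (hW n), ← proj_inner (hP n)]
    have h2 : P n (P n x) = P n x := by
      have := congrArg (fun T : H →L[ℂ] H => T x) (hmul n n le_rfl)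
      simpa using this
    simp [h2]
  have hsq : ∀ x, ‖T x‖ = ‖x‖ := by
    intro x
    have h1 : ‖T0 x + ⟪ξ, x⟫_ℂ • ξ'‖ ^ 2 = ‖x‖ ^ 2 := by
      have e : x = (x - ⟪ξ, x⟫_ℂ • ξ) + ⟪ξ, x⟫_ℂ • ξ := by abel
      have o : ⟪x - ⟪ξ, x⟫_ℂ • ξ, ξ⟫_ℂ = 0 := by
        rw [inner_sub_left, inner_smul_left, inner_self_eq_norm_sq_to_K, hξ, inner_conj_symm]
        simp
      conv_rhs => rw [e, @norm_add_sq ℂ, inner_smul_right, o]
      rw [@norm_add_sq ℂ, inner_smul_right, horth, hT0n, norm_smul, norm_smul, hξ, hξ']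
    exact (sq_eq_sq₀ (norm_nonneg _) (norm_nonneg _)).1 h1
  let v : H →L[ℂ] H := LinearMap.mkContinuous T 1 (fun x => by simp [hsq x])
  have hv : ∀ x, v x = T0 x + ⟪ξ, x⟫_ℂ • ξ' := fun x => rfl
  refine ⟨v, hsq, fun m => ?_, fun m => ?_, fun x => ?_⟩
  · ext x
    simp only [mul_apply_eq_comp]
    rw [hv]
    have h0 : ⟪ξ, (1 - P m) x⟫_ℂ = 0 := by
      simp [← proj_inner (hP m), hfix m]
    rw [h0, zero_smul, add_zero]
    refine tendsto_nhds_unique (hT0 _) (tendsto_const_nhds.congr' ?_)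
    filter_upwards [eventually_ge_atTop m] with n hn
    have he : (1 - P n) * (1 - P m) = 1 - P m := by
      rw [sub_mul, mul_sub, mul_sub, one_mul, mul_one, hPP m n hn, one_mul]
      abel
    have h2 := congrArg (fun T : H →L[ℂ] H => T x) (hcompat m n hn)
    have h3 := congrArg (fun T : H →L[ℂ] H => T x) he
    simp only [mul_apply_eq_comp] at h2 h3
    rw [h3, h2]
  · ext x
    simp only [mul_apply_eq_comp]
    rw [hv, hv, map_add, map_add, map_add, map_smul, map_smul, map_smul, ← proj_inner (hP m),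
      hfix m]
    have hfm := hfix' m
    simp only [mul_apply_eq_comp] at hfm
    rw [hfm]
    congr 1
    refine tendsto_nhds_unique (hT0 _) ?_
    have h1 : Tendsto (fun n => W m (P m (star (W m) (W n ((1 - P n) x))))) atTop
        (𝓝 (W m (P m (star (W m) (T0 x))))) :=
      (((W m).continuous.comp ((P m).continuous.comp (star (W m)).continuous)).tendsto _).comp
        (hT0 x)
    refine h1.congr' ?_
    filter_upwards [eventually_ge_atTop m] with n hn
    have e1 : W n * P m = W m * P m * star (W m) * W n := by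
      have a1 : W n * (1 - P m) * star (W n) = W m * (1 - P m) * star (W m) := by
        have q : ∀ V : H →L[ℂ] H, V * (1 - P m) * star V = (V * (1 - P m)) * star (V * (1 - P m)) := by
          intro V
          rw [star_mul, (hP m).one_sub.isSelfAdjoint.star_eq]
          simp only [mul_assoc]
          rw [← mul_assoc (1 - P m), (hP m).one_sub.isIdempotentElem.eq]
        rw [q, q (W m), hcompat m n hn]
      simp only [mul_sub, mul_one, sub_mul, Unitary.mul_star_self_of_mem (hW n),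
        Unitary.mul_star_self_of_mem (hW m), sub_right_inj] at a1
      rw [← a1, mul_assoc (W n * P m), Unitary.star_mul_self_of_mem (hW n), mul_one]
    have e2 : P m * (1 - P n) = (1 - P n) * P m := by
      rw [mul_sub, sub_mul, mul_one, one_mul, hmul m n hn, hPP m n hn]
    have h2 := congrArg (fun T : H →L[ℂ] H => T ((1 - P n) x)) e1
    have h3 := congrArg (fun T : H →L[ℂ] H => T x) e2
    simp only [mul_apply_eq_comp] at h2 h3
    rw [← h2, h3]
  · rw [hv, add_sub_cancel_right]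
    exact hT0 x

/-- The glued unitary. -/
theorem glue (hP : ∀ n, IsStarProjection (P n)) (hmul : ∀ j k, j ≤ k → P j * P k = P k)
    (ξ : H) (hξ : ‖ξ‖ = 1) (hfix : ∀ n, P n ξ = ξ)
    (huniq : ∀ y, (∀ n, P n y = y) → y = ⟪ξ, y⟫_ℂ • ξ)
    (hW : ∀ n, W n ∈ unitary (H →L[ℂ] H))
    (hcompat : ∀ j k, j ≤ k → W k * (1 - P j) = W j * (1 - P j))
    (ξ' : H) (hξ' : ‖ξ'‖ = 1) (hfix' : ∀ n, (W n * P n * star (W n)) ξ' = ξ')
    (hmul' : ∀ j k, j ≤ k → (W j * P j * star (W j)) * (W k * P k * star (W k)) = W k * P k * star (W k))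
    (huniq' : ∀ y, (∀ n, (W n * P n * star (W n)) y = y) → y = ⟪ξ', y⟫_ℂ • ξ') :
    ∃ v ∈ unitary (H →L[ℂ] H), (∀ m, v * (1 - P m) = W m * (1 - P m)) ∧
      (∀ m, v * P m = (W m * P m * star (W m)) * v) := by
  obtain ⟨v, hv1, hv2, hv3, hv4⟩ := glue_aux P W hP hmul ξ hξ hfix huniq hW hcompat ξ' hξ' hfix'
  let Q : ℕ → (H →L[ℂ] H) := fun n => W n * P n * star (W n)
  have hQ : ∀ n, IsStarProjection (Q n) := fun n => by
    constructor
    · change W n * P n * star (W n) * (W n * P n * star (W n)) = W n * P n * star (W n)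
      simp only [mul_assoc]
      rw [← mul_assoc (star (W n)), Unitary.star_mul_self_of_mem (hW n), one_mul,
        ← mul_assoc (P n), (hP n).isIdempotentElem.eq]
    · exact (hP n).isSelfAdjoint.conjugate _
  have hQ1 : ∀ j, W j * (1 - P j) * star (W j) = 1 - Q j := fun j => by
    simp [mul_sub, sub_mul, Q, Unitary.mul_star_self_of_mem (hW j)]
  have hQW : ∀ j, star (W j) * (1 - Q j) = (1 - P j) * star (W j) := fun j => by
    rw [← hQ1 j]
    simp only [← mul_assoc, Unitary.star_mul_self_of_mem (hW j), one_mul]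
  have hcompat' : ∀ j k, j ≤ k → star (W k) * (1 - Q j) = star (W j) * (1 - Q j) := by
    intro j k h
    rw [hQW j, ← hQ1 j, ← hcompat j k h]
    simp only [← mul_assoc, Unitary.star_mul_self_of_mem (hW k), one_mul]
  have hQfix : ∀ n, (star (W n) * Q n * star (star (W n))) ξ = ξ := fun n => by
    have : star (W n) * Q n * star (star (W n)) = P n := by
      simp only [Q, star_star, mul_assoc]
      rw [Unitary.star_mul_self_of_mem (hW n), mul_one, ← mul_assoc,
        Unitary.star_mul_self_of_mem (hW n), one_mul]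
    rw [this, hfix]
  obtain ⟨w, hw1, -, -, hw4⟩ := glue_aux Q (fun n => star (W n)) hQ hmul' ξ' hξ' hfix' huniq'
    (fun n => Unitary.star_mem (hW n)) hcompat' ξ hξ hQfix
  have hadj : w = star v := by
    rw [ContinuousLinearMap.star_eq_adjoint, ContinuousLinearMap.eq_adjoint_iff]
    intro y x
    have h1 : Tendsto (fun n => ⟪star (W n) ((1 - Q n) y), x⟫_ℂ) atTop
        (𝓝 ⟪w y - ⟪ξ', y⟫_ℂ • ξ, x⟫_ℂ) := (hw4 y).inner tendsto_const_nhds
    have h2 : Tendsto (fun n => ⟪y, W n ((1 - P n) x)⟫_ℂ) atTop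
        (𝓝 ⟪y, v x - ⟪ξ, x⟫_ℂ • ξ'⟫_ℂ) := tendsto_const_nhds.inner (hv4 x)
    have h3 := tendsto_nhds_unique (h1.congr fun n => ?_) h2
    · rw [inner_sub_left, inner_sub_right, inner_smul_left, inner_smul_right, inner_conj_symm,
        mul_comm ⟪y, ξ'⟫_ℂ] at h3
      exact sub_left_injective h3
    · have := congrArg (fun T : H →L[ℂ] H => T y) (hQW n)
      simp only [mul_apply_eq_comp] at this
      rw [this, proj_inner (hP n).one_sub, ContinuousLinearMap.star_eq_adjoint,
        ContinuousLinearMap.adjoint_inner_left]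
  refine ⟨v, ?_, hv2, hv3⟩
  rw [Unitary.mem_iff]
  refine ⟨?_, ?_⟩
  · exact (ContinuousLinearMap.norm_map_iff_adjoint_comp_self v).1 hv1
  · have := (ContinuousLinearMap.norm_map_iff_adjoint_comp_self w).1 hw1
    rw [hadj, ContinuousLinearMap.star_eq_adjoint, ContinuousLinearMap.adjoint_adjoint] at this
    exact this

end Vale.Agent.P070
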