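import Vale.Agent.P070.Defs

/-! Cyclic vectors with equal states; equivalence of representations; excised vectors. -/

noncomputable section

open Filter Topology
open scoped InnerProductSpace

namespace Vale.Agent.P070

variable {A : Type*} [CStarAlgebra A]
  {H : Type*} [NormedAddCommGroup H] [InnerProductSpace ℂ H] [CompleteSpace H]
  {K : Type*} [NormedAddCommGroup K] [InnerProductSpace ℂ K] [CompleteSpace K]

omit [CStarAlgebra A] [CompleteSpace H] in
theorem UEquiv.refl (π : A → (H →L[ℂ] H)) : UEquiv π π :=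
  ⟨LinearIsometryEquiv.refl ℂ H, fun _ _ => rfl⟩

omit [CStarAlgebra A] [CompleteSpace H] in
theorem UEquiv.symm {π : A → (H →L[ℂ] H)} {σ : A → (K →L[ℂ] K)} (h : UEquiv π σ) : UEquiv σ π := by
  obtain ⟨U, hU⟩ := h
  refine ⟨U.symm, fun a x => ?_⟩
  apply U.injective
  rw [hU, U.apply_symm_apply, U.apply_symm_apply]

omit [CStarAlgebra A] [CompleteSpace H] in
theorem UEquiv.trans {L : Type*} [NormedAddCommGroup L] [InnerProductSpace ℂ L]
    {π : A → (H →L[ℂ] H)} {σ : A → (K →L[ℂ] K)} {τ : A → (L →L[ℂ] L)}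
    (h : UEquiv π σ) (h' : UEquiv σ τ) : UEquiv π τ := by
  obtain ⟨U, hU⟩ := h
  obtain ⟨V, hV⟩ := h'
  exact ⟨U.trans V, fun a x => by simp [hU, hV]⟩

/-- The orbit map of a vector. -/
def orbit (π : A →⋆ₐ[ℂ] (H →L[ℂ] H)) (x : H) : A →ₗ[ℂ] H where
  toFun a := π a x
  map_add' a b := by simp
  map_smul' c a := by simp

@[simp] theorem orbit_apply (π : A →⋆ₐ[ℂ] (H →L[ℂ] H)) (x : H) (a : A) : orbit π x a = π a x :=
  rfl

theorem Irred.denseRange {π : A →⋆ₐ[ℂ] (H →L[ℂ] H)} (hπ : Irred π) {x : H} (hx : x ≠ 0) :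
    DenseRange (orbit π x) := by
  set V := (LinearMap.range (orbit π x)).topologicalClosure with hV
  have hinv : ∀ a, ∀ y ∈ V, π a y ∈ V := by
    intro a y hy
    have hy' : y ∈ closure (LinearMap.range (orbit π x) : Set H) := by
      rw [← Submodule.topologicalClosure_coe]
      exact hy
    have := map_mem_closure (π a).continuous hy' (t := (LinearMap.range (orbit π x) : Set H))
      (by
        rintro _ ⟨b, rfl⟩
        exact ⟨a * b, by simp⟩)
    rw [← Submodule.topologicalClosure_coe] at this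
    exact this
  rcases hπ.2 V (Submodule.isClosed_topologicalClosure _) hinv with h | h
  · exfalso
    apply hx
    have : x ∈ V := Submodule.le_topologicalClosure _ ⟨1, by simp⟩
    rw [h] at this
    exact (Submodule.mem_bot ℂ).1 this
  · intro y
    have : y ∈ V := h ▸ Submodule.mem_top
    rw [hV] at this
    exact (Submodule.topologicalClosure_coe (LinearMap.range (orbit π x))) ▸ this

theorem norm_orbit (π : A →⋆ₐ[ℂ] (H →L[ℂ] H)) (x : H) (a : A) :
    ((‖π a x‖ ^ 2 : ℝ) : ℂ) = ⟪x, π (star a * a) x⟫_ℂ := by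
  rw [map_mul, map_star, mul_apply_eq_comp, ContinuousLinearMap.star_eq_adjoint,
    ContinuousLinearMap.adjoint_inner_right, inner_self_eq_norm_sq_to_K]
  push_cast
  rfl

/-- Irreducible representations with cyclic vectors of equal states are equivalent. -/
theorem equiv_of_state {π : A →⋆ₐ[ℂ] (H →L[ℂ] H)} {σ : A →⋆ₐ[ℂ] (K →L[ℂ] K)} (hπ : Irred π)
    (hσ : Irred σ) {x : H} {y : K} (hx : x ≠ 0) (hy : y ≠ 0)
    (hst : ∀ a, ⟪x, π a x⟫_ℂ = ⟪y, σ a y⟫_ℂ) : UEquiv π σ := by
  have hd := hπ.denseRange hx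
  have hn : ∀ a, ‖orbit σ y a‖ = ‖orbit π x a‖ := fun a => by
    have h := (norm_orbit π x a).trans ((hst _).trans (norm_orbit σ y a).symm)
    exact (sq_eq_sq₀ (norm_nonneg _) (norm_nonneg _)).1 (Complex.ofReal_inj.1 h.symm)
  let U := (orbit σ y).extendOfNorm (orbit π x)
  have hb : ∃ C, ∀ a, ‖orbit σ y a‖ ≤ C * ‖orbit π x a‖ := ⟨1, fun a => by rw [hn, one_mul]⟩
  have hU : ∀ a, U (orbit π x a) = orbit σ y a := fun a => LinearMap.extendOfNorm_eq hd hb a
  have hiso : ∀ z, ‖U z‖ = ‖z‖ := fun z =>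
    hd.induction_on z (isClosed_eq (by fun_prop) (by fun_prop)) fun a => by rw [hU, hn]
  let Ui : H →ₗᵢ[ℂ] K := ⟨U.toLinearMap, hiso⟩
  have hsurj : Function.Surjective Ui := by
    rw [← Set.range_eq_univ]
    refine (Ui.isometry.isClosedEmbedding.isClosed_range).closure_eq.symm.trans ?_
    refine Set.eq_univ_of_univ_subset ?_
    rw [← (hσ.denseRange hy).closure_range]
    refine closure_mono ?_
    rintro _ ⟨a, rfl⟩
    exact ⟨orbit π x a, hU a⟩
  refine ⟨LinearIsometryEquiv.ofSurjective Ui hsurj, fun b z => ?_⟩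
  change U (π b z) = σ b (U z)
  refine hd.induction_on z (isClosed_eq (by fun_prop) (by fun_prop)) fun a => ?_
  have h1 : π b (orbit π x a) = orbit π x (b * a) := by simp
  rw [h1, hU, hU]
  simp

namespace Excised

variable {p : ℕ → A} {π : A →⋆ₐ[ℂ] (H →L[ℂ] H)}

/-- The excising projections. -/
def f (D : Excised p π) (k : ℕ) : A := D.U k * p k * star (D.U k)

theorem ξ_ne (D : Excised p π) : D.ξ ≠ 0 := by
  intro h
  have := D.norm_ξ
  rw [h, norm_zero] at this
  exact zero_ne_one this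

theorem f_proj (D : Excised p π) (hp : ∀ k, IsStarProjection (p k)) (k : ℕ) :
    IsStarProjection (D.f k) := by
  constructor
  · change D.U k * p k * star (D.U k) * (D.U k * p k * star (D.U k)) = D.U k * p k * star (D.U k)
    simp only [mul_assoc]
    rw [← mul_assoc (star (D.U k)), Unitary.star_mul_self_of_mem (D.U_mem k), one_mul,
      ← mul_assoc (p k), (hp k).isIdempotentElem.eq]
  · exact (hp k).isSelfAdjoint.conjugate _

theorem f_eq (D : Excised p π) (hp : ∀ k, IsStarProjection (p k)) {j k : ℕ} (h : j ≤ k) :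
    D.f j = D.U k * p j * star (D.U k) := by
  have q : ∀ V : A, V * (1 - p j) * star V = (V * (1 - p j)) * star (V * (1 - p j)) := by
    intro V
    rw [star_mul, (hp j).one_sub.isSelfAdjoint.star_eq]
    simp only [mul_assoc]
    rw [← mul_assoc (1 - p j), (hp j).one_sub.isIdempotentElem.eq]
  have a1 : D.U k * (1 - p j) * star (D.U k) = D.U j * (1 - p j) * star (D.U j) := by
    rw [q, q (D.U j), D.U_compat j k h]
  simp only [mul_sub, mul_one, sub_mul, Unitary.mul_star_self_of_mem (D.U_mem k),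
    Unitary.mul_star_self_of_mem (D.U_mem j), sub_right_inj] at a1
  exact a1.symm

theorem f_mul (D : Excised p π) (hp : ∀ k, IsStarProjection (p k))
    (hmul : ∀ j k, j ≤ k → p j * p k = p k) {j k : ℕ} (h : j ≤ k) :
    D.f j * D.f k = D.f k := by
  rw [D.f_eq hp h, f]
  simp only [mul_assoc]
  rw [← mul_assoc (star (D.U k)), Unitary.star_mul_self_of_mem (D.U_mem k), one_mul,
    ← mul_assoc (p j), hmul j k h]

/-- Vectors fixed by all excising projections carry the excised state. -/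
theorem fixed_inner (D : Excised p π) (hp : ∀ k, IsStarProjection (p k))
    {σ : A →⋆ₐ[ℂ] (K →L[ℂ] K)} {x y : K} (hx : ∀ k, σ (D.f k) x = x)
    (hy : ∀ k, σ (D.f k) y = y) (a : A) :
    ⟪x, σ a y⟫_ℂ = ⟪D.ξ, π a D.ξ⟫_ℂ * ⟪x, y⟫_ℂ := by
  set c := ⟪D.ξ, π a D.ξ⟫_ℂ
  have h0 : Tendsto (fun k => ⟪x, σ (D.f k * a * D.f k - c • D.f k) y⟫_ℂ) atTop (𝓝 0) := by
    refine squeeze_zero_norm (fun k => ?_) (((D.exc a).mul_const ‖y‖).const_mul ‖x‖ |>.trans
      (by simp))
    exact (norm_inner_le_norm _ _).trans (mul_le_mul_of_nonneg_left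
      (((σ _).le_opNorm _).trans (mul_le_mul_of_nonneg_right
        (NonUnitalStarAlgHom.norm_apply_le σ _) (norm_nonneg _))) (norm_nonneg _))
  have h1 : ∀ k, ⟪x, σ (D.f k * a * D.f k - c • D.f k) y⟫_ℂ = ⟪x, σ a y⟫_ℂ - c * ⟪x, y⟫_ℂ := by
    intro k
    have hs : star (σ (D.f k)) = σ (D.f k) := by
      rw [← map_star, (D.f_proj hp k).isSelfAdjoint.star_eq]
    rw [map_sub, map_smul, map_mul, map_mul, sub_apply, smul_apply, mul_apply_eq_comp,
      mul_apply_eq_comp, hy, inner_sub_right, inner_smul_right]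
    congr 1
    conv_lhs => rw [← hs, ContinuousLinearMap.star_eq_adjoint,
      ContinuousLinearMap.adjoint_inner_right, hx]
  simp only [h1] at h0
  exact sub_eq_zero.1 (tendsto_nhds_unique tendsto_const_nhds h0)

/-- A representation containing a fixed vector is equivalent to the excised one. -/
theorem equiv_of_fixed (D : Excised p π) (hπ : Irred π) (hp : ∀ k, IsStarProjection (p k))
    {σ : A →⋆ₐ[ℂ] (K →L[ℂ] K)} (hσ : Irred σ) {y : K} (hy0 : y ≠ 0)
    (hy : ∀ k, σ (D.f k) y = y) : UEquiv π σ := by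
  have hn : ((‖y‖⁻¹ : ℝ) : ℂ) ≠ 0 := by simpa using hy0
  refine equiv_of_state hπ hσ D.ξ_ne (smul_ne_zero hn hy0) fun a => ?_
  rw [map_smul, inner_smul_left, inner_smul_right, D.fixed_inner hp hy hy a,
    inner_self_eq_norm_sq_to_K, Complex.conj_ofReal]
  have : (‖y‖ : ℂ) ≠ 0 := by simpa using hy0
  push_cast
  field_simp
  rfl

/-- In the excised representation the fixed vectors form a line. -/
theorem fixed_line (D : Excised p π) (hπ : Irred π) (hp : ∀ k, IsStarProjection (p k)) {y : H}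
    (hy : ∀ k, π (D.f k) y = y) : y = ⟪D.ξ, y⟫_ℂ • D.ξ := by
  set z := y - ⟪D.ξ, y⟫_ℂ • D.ξ with hz
  have hzf : ∀ k, π (D.f k) z = z := fun k => by
    rw [hz, map_sub, map_smul, hy, show π (D.f k) D.ξ = D.ξ from D.fix k]
  have hz0 : ⟪z, D.ξ⟫_ℂ = 0 := by
    rw [hz, inner_sub_left, inner_smul_left, inner_self_eq_norm_sq_to_K, D.norm_ξ,
      inner_conj_symm]
    simp
  have : z = 0 := by
    have h : ∀ w, ⟪z, w⟫_ℂ = 0 := fun w =>
      (hπ.denseRange D.ξ_ne).induction_on w (isClosed_eq (by fun_prop) (by fun_prop)) fun a => by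
        rw [orbit_apply, D.fixed_inner hp hzf (fun k => D.fix k), hz0, mul_zero]
    exact inner_self_eq_zero.1 (h z)
  exact sub_eq_zero.1 this

/-- Transport along a unitary equivalence. -/
def map (D : Excised p π) (σ : A →⋆ₐ[ℂ] (K →L[ℂ] K)) (U : H ≃ₗᵢ[ℂ] K)
    (hU : ∀ a x, U (π a x) = σ a (U x)) : Excised p σ where
  ξ := U D.ξ
  norm_ξ := by rw [U.norm_map, D.norm_ξ]
  U := D.U
  U_mem := D.U_mem
  U_compat := D.U_compat
  fix k := by rw [← hU, D.fix]
  exc a := by simpa [← hU, U.inner_map_map] using D.exc a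

end Excised

end Vale.Agent.P070
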