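import Vale.Agent.P070.Diag
import Vale.Agent.P070.Hilbert
import Vale.Agent.P070.Reps

/-! The algebra generated by the connecting unitaries and the excision of its base state. -/

noncomputable section

open Filter Topology
open scoped InnerProductSpace ENNReal

namespace Vale.Agent.P070

theorem proj_norm_le {A : Type*} [CStarAlgebra A] {q : A} (hq : IsStarProjection q) : ‖q‖ ≤ 1 := by
  have h : ‖q‖ * ‖q‖ = ‖q‖ := by
    rw [← CStarRing.norm_star_mul_self, hq.isSelfAdjoint.star_eq, hq.isIdempotentElem.eq]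
  nlinarith [norm_nonneg q]

/-- The data of the construction: inequivalent irreducible representations, each excised. -/
structure Setting (A : Type) [CStarAlgebra A] where
  p : ℕ → A
  p_proj : ∀ k, IsStarProjection (p k)
  p_mul : ∀ j k, j ≤ k → p j * p k = p k
  ι : Type
  dec : DecidableEq ι
  rep : ι → (A →⋆ₐ[ℂ] (E2 →L[ℂ] E2))
  irr : ∀ i, Irred (rep i)
  ineq : ∀ i j, UEquiv (rep i) (rep j) → i = j
  D : ∀ i, Excised p (rep i)
  o : ι
  U_o : ∀ k, (D o).U k = 1

namespace Setting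

variable {A : Type} [CStarAlgebra A] (S : Setting A)

instance : DecidableEq S.ι := S.dec

/-- The Hilbert sum. -/
abbrev HH : Type := lp (fun _ : S.ι => E2) 2

/-- The diagonal representation. -/
def π : A →⋆ₐ[ℂ] (S.HH →L[ℂ] S.HH) := diag S.rep

/-- The excised vector of class i inside the sum. -/
def X (i : S.ι) : S.HH := lp.single 2 i (S.D i).ξ

/-- The excising projections of class i. -/
def f (i : S.ι) (n : ℕ) : A := (S.D i).f n

theorem f_o (n : ℕ) : S.f S.o n = S.p n := by simp [f, Excised.f, S.U_o]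

theorem f_proj (i : S.ι) (n : ℕ) : IsStarProjection (S.f i n) := (S.D i).f_proj S.p_proj n

theorem f_mul (i : S.ι) {j k : ℕ} (h : j ≤ k) : S.f i j * S.f i k = S.f i k :=
  (S.D i).f_mul S.p_proj S.p_mul h

theorem norm_X (i : S.ι) : ‖S.X i‖ = 1 := by
  rw [X, lp.norm_single (by norm_num), (S.D i).norm_ξ]

theorem π_single (a : A) (i : S.ι) (y : E2) :
    S.π a (lp.single 2 i y) = lp.single 2 i (S.rep i a y) :=
  diag_single S.rep a i y

theorem f_X (i : S.ι) (n : ℕ) : S.π (S.f i n) (S.X i) = S.X i := by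
  rw [X, π_single]
  congr 1
  exact (S.D i).fix n

theorem inner_X (i : S.ι) (y : S.HH) : ⟪S.X i, y⟫_ℂ = ⟪(S.D i).ξ, y i⟫_ℂ :=
  lp.inner_single_left i _ y

theorem inner_X_X {i k : S.ι} (h : i ≠ k) (a : A) : ⟪S.X k, S.π a (S.X i)⟫_ℂ = 0 := by
  rw [S.inner_X, X, π_single, lp.single_apply_ne 2 i _ (Ne.symm h), inner_zero_right]

theorem fixed_eq (i : S.ι) (y : S.HH) (hy : ∀ n, S.π (S.f i n) y = y) :
    y = ⟪S.X i, y⟫_ℂ • S.X i := by
  have hc : ∀ j n, S.rep j ((S.D i).f n) (y j) = y j := fun j n => by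
    conv_rhs => rw [← hy n]
    rfl
  refine lp.ext (funext fun j => ?_)
  rw [lp.coeFn_smul, Pi.smul_apply, S.inner_X, X]
  rcases eq_or_ne j i with rfl | hji
  · rw [lp.single_apply_self]
    exact (S.D j).fixed_line (S.irr j) S.p_proj (hc j)
  · rw [lp.single_apply_ne 2 i _ hji, smul_zero]
    by_contra h0
    exact hji (S.ineq i j ((S.D i).equiv_of_fixed (S.irr i) S.p_proj (S.irr j) h0 (hc j))).symm

theorem tendsto_f (i : S.ι) (x : S.HH) :
    Tendsto (fun n => S.π (S.f i n) x) atTop (𝓝 (⟪S.X i, x⟫_ℂ • S.X i)) :=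
  tendsto_proj (fun n => S.π (S.f i n)) (fun n => (S.f_proj i n).map S.π)
    (fun j k h => by rw [← map_mul, S.f_mul i h]) (S.X i) (S.f_X i) (S.fixed_eq i) x

theorem exists_v (i : S.ι) : ∃ v ∈ unitary (S.HH →L[ℂ] S.HH),
    (∀ m, v * (1 - S.π (S.p m)) = S.π ((S.D i).U m * (1 - S.p m))) ∧
    (∀ m, v * S.π (S.p m) = S.π (S.f i m) * v) := by
  have hf : ∀ n, S.π ((S.D i).U n) * S.π (S.p n) * star (S.π ((S.D i).U n)) = S.π (S.f i n) := by
    intro n
    rw [← map_star, ← map_mul, ← map_mul]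
    rfl
  obtain ⟨v, hv, h1, h2⟩ := glue (fun n => S.π (S.p n)) (fun n => S.π ((S.D i).U n))
    (fun n => (S.p_proj n).map S.π) (fun j k h => by rw [← map_mul, S.p_mul j k h])
    (S.X S.o) (S.norm_X _) (fun n => by rw [← S.f_o n]; exact S.f_X S.o n)
    (fun y hy => S.fixed_eq S.o y fun n => by rw [S.f_o n]; exact hy n)
    (fun n => by
      rw [Unitary.mem_iff, ← map_star, ← map_mul, ← map_mul,
        Unitary.star_mul_self_of_mem ((S.D i).U_mem n),
        Unitary.mul_star_self_of_mem ((S.D i).U_mem n), map_one]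
      exact ⟨rfl, rfl⟩)
    (fun j k h => by
      simp only [← map_one S.π, ← map_sub, ← map_mul, (S.D i).U_compat j k h])
    (S.X i) (S.norm_X i) (fun n => by rw [hf]; exact S.f_X i n)
    (fun j k h => by rw [hf, hf, ← map_mul, S.f_mul i h])
    (fun y hy => S.fixed_eq i y fun n => by rw [← hf n]; exact hy n)
  exact ⟨v, hv, fun m => by rw [h1 m, map_mul, map_sub, map_one],
    fun m => (h2 m).trans (by rw [hf])⟩

/-- The connecting unitaries. -/
def v (i : S.ι) : S.HH →L[ℂ] S.HH := if i = S.o then 1 else (S.exists_v i).choose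

theorem v_o : S.v S.o = 1 := if_pos rfl

theorem v_spec (i : S.ι) : S.v i ∈ unitary (S.HH →L[ℂ] S.HH) ∧
    (∀ m, S.v i * (1 - S.π (S.p m)) = S.π ((S.D i).U m * (1 - S.p m))) ∧
    (∀ m, S.v i * S.π (S.p m) = S.π (S.f i m) * S.v i) := by
  rcases eq_or_ne i S.o with rfl | h
  · rw [S.v_o]
    refine ⟨one_mem _, fun m => ?_, fun m => ?_⟩
    · simp [S.U_o]
    · simp [S.f_o]
  · rw [v, if_neg h]
    exact (S.exists_v i).choose_spec

theorem v_mem (i : S.ι) : S.v i ∈ unitary (S.HH →L[ℂ] S.HH) := (S.v_spec i).1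

theorem v_compl (i : S.ι) (m : ℕ) :
    S.v i * (1 - S.π (S.p m)) = S.π ((S.D i).U m * (1 - S.p m)) := (S.v_spec i).2.1 m

theorem v_p (i : S.ι) (m : ℕ) : S.v i * S.π (S.p m) = S.π (S.f i m) * S.v i := (S.v_spec i).2.2 m

theorem v_split (i : S.ι) (m : ℕ) :
    S.v i = S.π ((S.D i).U m * (1 - S.p m)) + S.v i * S.π (S.p m) := by
  rw [← S.v_compl i m, mul_sub, mul_one, sub_add_cancel]

theorem vstar_f (i : S.ι) (m : ℕ) :
    star (S.v i) * S.π (S.f i m) = S.π (S.p m) * star (S.v i) := by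
  have h := congrArg star (S.v_p i m)
  rw [star_mul, star_mul, ((S.p_proj m).map S.π).isSelfAdjoint.star_eq,
    ((S.f_proj i m).map S.π).isSelfAdjoint.star_eq] at h
  exact h.symm

theorem vstar_split (i : S.ι) (m : ℕ) :
    star (S.v i) = S.π ((1 - S.p m) * star ((S.D i).U m)) + star (S.v i) * S.π (S.f i m) := by
  have h := congrArg star (S.v_compl i m)
  rw [star_mul, ← map_star S.π ((S.D i).U m * (1 - S.p m)), star_mul,
    (S.p_proj m).one_sub.isSelfAdjoint.star_eq,
    ((S.p_proj m).map S.π).one_sub.isSelfAdjoint.star_eq] at h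
  rw [← h, S.vstar_f, sub_mul, one_mul, sub_add_cancel]

theorem norm_v_le (i : S.ι) : ‖S.v i‖ ≤ 1 := by
  refine ContinuousLinearMap.opNorm_le_bound _ zero_le_one fun x => ?_
  rw [one_mul, (S.v i).norm_map_of_mem_unitary (S.v_mem i)]

theorem norm_π_le (a : A) : ‖S.π a‖ ≤ ‖a‖ := NonUnitalStarAlgHom.norm_apply_le S.π a

theorem norm_P_le (n : ℕ) : ‖S.π (S.p n)‖ ≤ 1 := proj_norm_le ((S.p_proj n).map S.π)

/-- The approximation estimate for excised vectors. -/
theorem norm_mul_f (c : A) (i : S.ι) {ε : ℝ} (hε : 0 < ε) :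
    ∀ᶠ n in atTop, ‖c * S.f i n‖ ≤ ‖S.π c (S.X i)‖ + ε := by
  have h := (S.D i).exc (star c * c)
  rw [Metric.tendsto_nhds] at h
  filter_upwards [h (ε ^ 2) (by positivity)] with n hn
  rw [dist_zero_right, norm_norm] at hn
  set s := ⟪(S.D i).ξ, S.rep i (star c * c) (S.D i).ξ⟫_ℂ with hs
  have hsn : ‖s‖ = ‖S.π c (S.X i)‖ ^ 2 := by
    rw [hs, ← norm_orbit, Complex.norm_real, Real.norm_of_nonneg (by positivity), X, π_single,
      lp.norm_single (by norm_num)]
  have h1 : ‖c * S.f i n‖ ^ 2 ≤ ε ^ 2 + ‖s‖ := by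
    rw [sq ‖c * S.f i n‖, ← CStarRing.norm_star_mul_self, star_mul,
      (S.f_proj i n).isSelfAdjoint.star_eq]
    have e : S.f i n * star c * (c * S.f i n) =
        (S.f i n * (star c * c) * S.f i n - s • S.f i n) + s • S.f i n := by
      rw [sub_add_cancel]
      simp only [mul_assoc]
    rw [e]
    refine (norm_add_le _ _).trans (add_le_add hn.le ?_)
    rw [norm_smul]
    exact mul_le_of_le_one_right (norm_nonneg _) (proj_norm_le (S.f_proj i n))
  rw [hsn] at h1
  exact (pow_le_pow_iff_left₀ (norm_nonneg _) (by positivity) two_ne_zero).1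
    (h1.trans (by nlinarith [norm_nonneg (S.π c (S.X i)), hε.le]))

theorem cross_small {i k : S.ι} (h : i ≠ k) (a : A) {ε : ℝ} (hε : 0 < ε) :
    ∃ m, ∀ᶠ n in atTop, ‖S.f k m * a * S.f i n‖ ≤ ε := by
  have h1 := S.tendsto_f k (S.π a (S.X i))
  rw [S.inner_X_X h, zero_smul] at h1
  obtain ⟨m, hm⟩ := ((tendsto_zero_iff_norm_tendsto_zero.1 h1).eventually_le_const
    (half_pos hε)).exists
  refine ⟨m, ?_⟩
  filter_upwards [S.norm_mul_f (S.f k m * a) i (half_pos hε)] with n hn
  rw [map_mul, mul_apply_eq_comp] at hn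
  linarith

theorem diag_small (i : S.ι) (a : A) {ε : ℝ} (hε : 0 < ε) :
    ∃ m, ∀ᶠ n in atTop,
      ‖S.f i m * a * S.f i n - ⟪S.X i, S.π a (S.X i)⟫_ℂ • S.f i n‖ ≤ ε := by
  set μ := ⟪S.X i, S.π a (S.X i)⟫_ℂ
  have h1 := (S.tendsto_f i (S.π a (S.X i))).sub_const (μ • S.X i)
  rw [sub_self] at h1
  obtain ⟨m, hm⟩ := ((tendsto_zero_iff_norm_tendsto_zero.1 h1).eventually_le_const
    (half_pos hε)).exists
  refine ⟨m, ?_⟩
  filter_upwards [S.norm_mul_f (S.f i m * a - μ • 1) i (half_pos hε)] with n hn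
  rw [sub_mul, smul_one_mul, map_sub, map_smul, map_one, sub_apply, smul_apply,
    one_apply_eq_self, map_mul, mul_apply_eq_comp] at hn
  linarith

/-- Finite sums of generators. -/
def M : Submodule ℂ (S.HH →L[ℂ] S.HH) :=
  Submodule.span ℂ (Set.range fun ai : A × S.ι => S.π ai.1 * S.v ai.2)

theorem gen_mem (a : A) (i : S.ι) : S.π a * S.v i ∈ S.M := Submodule.subset_span ⟨(a, i), rfl⟩

/-- Approximability under the standard projections. -/
def Good (b : S.HH →L[ℂ] S.HH) : Prop :=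
  ∀ ε : ℝ, 0 < ε → ∃ s ∈ S.M, ∀ᶠ n in atTop, ‖(b - s) * S.π (S.p n)‖ ≤ ε

theorem good_of_mem {b : S.HH →L[ℂ] S.HH} (h : b ∈ S.M) : S.Good b :=
  fun ε hε => ⟨b, h, Eventually.of_forall fun n => by simp [hε.le]⟩

variable {S} in
theorem Good.add {b c : S.HH →L[ℂ] S.HH} (hb : S.Good b) (hc : S.Good c) : S.Good (b + c) := by
  intro ε hε
  obtain ⟨s, hs, hs'⟩ := hb (ε / 2) (half_pos hε)
  obtain ⟨t, ht, ht'⟩ := hc (ε / 2) (half_pos hε)
  refine ⟨s + t, add_mem hs ht, ?_⟩
  filter_upwards [hs', ht'] with n h1 h2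
  rw [add_sub_add_comm, add_mul]
  exact (norm_add_le _ _).trans (by linarith)

variable {S} in
theorem Good.smul {b : S.HH →L[ℂ] S.HH} (z : ℂ) (hb : S.Good b) : S.Good (z • b) := by
  intro ε hε
  obtain ⟨s, hs, hs'⟩ := hb (ε / (‖z‖ + 1)) (by positivity)
  refine ⟨z • s, S.M.smul_mem z hs, ?_⟩
  filter_upwards [hs'] with n hn
  rw [← smul_sub, smul_mul_assoc, norm_smul]
  calc ‖z‖ * ‖(b - s) * S.π (S.p n)‖ ≤ (‖z‖ + 1) * (ε / (‖z‖ + 1)) := by gcongr; linarith
    _ = ε := by field_simp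

theorem good_lim {b : S.HH →L[ℂ] S.HH}
    (h : ∀ ε : ℝ, 0 < ε → ∃ c, S.Good c ∧ ∀ᶠ n in atTop, ‖(b - c) * S.π (S.p n)‖ ≤ ε) :
    S.Good b := by
  intro ε hε
  obtain ⟨c, hc, hc'⟩ := h (ε / 2) (half_pos hε)
  obtain ⟨s, hs, hs'⟩ := hc (ε / 2) (half_pos hε)
  refine ⟨s, hs, ?_⟩
  filter_upwards [hc', hs'] with n h1 h2
  rw [show b - s = (b - c) + (c - s) by abel, add_mul]
  exact (norm_add_le _ _).trans (by linarith)

/-- Moving the standard projection through a generator. -/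
theorem gen_P (x : S.HH →L[ℂ] S.HH) (a : A) (i : S.ι) (n : ℕ) :
    x * (S.π a * S.v i) * S.π (S.p n) = x * S.π (a * S.f i n) * S.v i := by
  rw [mul_assoc x, mul_assoc (S.π a), S.v_p, map_mul]
  simp only [mul_assoc]

theorem norm_sandwich (x : S.HH →L[ℂ] S.HH) (hx : ‖x‖ ≤ 1) (c : A) (i : S.ι) {ε : ℝ}
    (hc : ‖c‖ ≤ ε) : ‖x * S.π c * S.v i‖ ≤ ε := by
  refine (norm_mul_le _ _).trans ((mul_le_of_le_one_right (norm_nonneg _) (S.norm_v_le i)).trans ?_)
  exact (norm_mul_le _ _).trans ((mul_le_of_le_one_left (norm_nonneg _) hx).trans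
    ((S.norm_π_le c).trans hc))

theorem good_v_gen (k : S.ι) (a : A) (i : S.ι) : S.Good (S.v k * (S.π a * S.v i)) := by
  intro ε hε
  rcases eq_or_ne i S.o with rfl | hi
  · obtain ⟨m, hm⟩ := S.diag_small S.o a hε
    set μ := ⟪S.X S.o, S.π a (S.X S.o)⟫_ℂ
    refine ⟨S.π ((S.D k).U m * (1 - S.p m) * a) * S.v S.o + μ • (S.π 1 * S.v k),
      add_mem (S.gen_mem _ _) (S.M.smul_mem _ (S.gen_mem _ _)), ?_⟩
    filter_upwards [hm] with n hn
    have e : (S.v k * (S.π a * S.v S.o) - (S.π ((S.D k).U m * (1 - S.p m) * a) * S.v S.o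
        + μ • (S.π 1 * S.v k))) * S.π (S.p n)
        = S.v k * S.π (S.f S.o m * a * S.f S.o n - μ • S.f S.o n) * S.v S.o := by
      conv_lhs => arg 1; arg 1; rw [S.v_split k m]
      simp only [S.v_o, S.f_o, mul_one, map_one, one_mul, map_mul, map_sub, map_smul, mul_sub,
        sub_mul, add_mul, mul_assoc, smul_mul_assoc, mul_smul_comm]
      abel
    rw [e]
    exact S.norm_sandwich _ (S.norm_v_le k) _ _ hn
  · obtain ⟨m, hm⟩ := S.cross_small hi a hε
    refine ⟨S.π ((S.D k).U m * (1 - S.p m) * a) * S.v i, S.gen_mem _ _, ?_⟩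
    filter_upwards [hm] with n hn
    have e : (S.v k * (S.π a * S.v i) - S.π ((S.D k).U m * (1 - S.p m) * a) * S.v i)
        * S.π (S.p n) = S.v k * S.π (S.f S.o m * a * S.f i n) * S.v i := by
      conv_lhs => arg 1; arg 1; rw [S.v_split k m]
      rw [S.f_o, add_mul, ← mul_assoc (S.π _) (S.π a), ← map_mul, add_sub_cancel_left, gen_P]
      simp only [map_mul, mul_assoc]
    rw [e]
    exact S.norm_sandwich _ (S.norm_v_le k) _ _ hn

theorem good_vstar_gen (k : S.ι) (a : A) (i : S.ι) :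
    S.Good (star (S.v k) * (S.π a * S.v i)) := by
  have hk : ‖star (S.v k)‖ ≤ 1 := le_of_eq_of_le (norm_star (S.v k)) (S.norm_v_le k)
  intro ε hε
  rcases eq_or_ne i k with rfl | hi
  · obtain ⟨m, hm⟩ := S.diag_small i a hε
    set μ := ⟪S.X i, S.π a (S.X i)⟫_ℂ
    refine ⟨S.π ((1 - S.p m) * star ((S.D i).U m) * a) * S.v i + μ • (S.π 1 * S.v S.o),
      add_mem (S.gen_mem _ _) (S.M.smul_mem _ (S.gen_mem _ _)), ?_⟩
    filter_upwards [hm] with n hn
    have h1 : star (S.v i) * (S.π (S.f i n) * S.v i) = S.π (S.p n) := by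
      rw [← S.v_p, ← mul_assoc, Unitary.star_mul_self_of_mem (S.v_mem i), one_mul]
    have e : (star (S.v i) * (S.π a * S.v i) - (S.π ((1 - S.p m) * star ((S.D i).U m) * a) * S.v i
        + μ • (S.π 1 * S.v S.o))) * S.π (S.p n)
        = star (S.v i) * S.π (S.f i m * a * S.f i n - μ • S.f i n) * S.v i := by
      conv_lhs => arg 1; arg 1; rw [S.vstar_split i m]
      simp only [S.v_o, mul_one, map_one, one_mul, map_mul, map_sub, map_smul, mul_sub,
        sub_mul, add_mul, mul_assoc, smul_mul_assoc, mul_smul_comm, h1, S.v_p]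
      abel
    rw [e]
    exact S.norm_sandwich _ hk _ _ hn
  · obtain ⟨m, hm⟩ := S.cross_small hi a hε
    refine ⟨S.π ((1 - S.p m) * star ((S.D k).U m) * a) * S.v i, S.gen_mem _ _, ?_⟩
    filter_upwards [hm] with n hn
    have e : (star (S.v k) * (S.π a * S.v i) - S.π ((1 - S.p m) * star ((S.D k).U m) * a) * S.v i)
        * S.π (S.p n) = star (S.v k) * S.π (S.f k m * a * S.f i n) * S.v i := by
      conv_lhs => arg 1; arg 1; rw [S.vstar_split k m]
      rw [add_mul, ← mul_assoc (S.π _) (S.π a), ← map_mul, add_sub_cancel_left, gen_P]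
      simp only [map_mul, mul_assoc]
    rw [e]
    exact S.norm_sandwich _ hk _ _ hn

/-- Left multipliers of the approximable set. -/
def multipliers : Subalgebra ℂ (S.HH →L[ℂ] S.HH) where
  carrier := {x | ∀ b, S.Good b → S.Good (x * b)}
  mul_mem' {x y} hx hy b hb := by rw [mul_assoc]; exact hx _ (hy b hb)
  add_mem' {x y} hx hy b hb := by rw [add_mul]; exact (hx b hb).add (hy b hb)
  algebraMap_mem' z b hb := by
    rw [Algebra.algebraMap_eq_smul_one, smul_mul_assoc, one_mul]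
    exact hb.smul z

theorem mem_multipliers {x : S.HH →L[ℂ] S.HH}
    (h : ∀ a i, S.Good (x * (S.π a * S.v i))) : x ∈ S.multipliers := by
  intro b hb
  have hM : ∀ s ∈ S.M, S.Good (x * s) := by
    intro s hs
    induction hs using Submodule.span_induction with
    | mem y hy =>
      obtain ⟨⟨a, i⟩, rfl⟩ := hy
      exact h a i
    | zero => rw [mul_zero]; exact S.good_of_mem (zero_mem _)
    | add y z _ _ hy hz => rw [mul_add]; exact hy.add hz
    | smul c y _ hy => rw [mul_smul_comm]; exact hy.smul c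
  refine S.good_lim fun ε hε => ?_
  obtain ⟨s, hs, hs'⟩ := hb (ε / (‖x‖ + 1)) (by positivity)
  refine ⟨x * s, hM s hs, ?_⟩
  filter_upwards [hs'] with n hn
  rw [← mul_sub, mul_assoc]
  calc ‖x * ((b - s) * S.π (S.p n))‖ ≤ ‖x‖ * ‖(b - s) * S.π (S.p n)‖ := norm_mul_le _ _
    _ ≤ (‖x‖ + 1) * (ε / (‖x‖ + 1)) := by gcongr; linarith
    _ = ε := by field_simp

theorem isClosed_multipliers : IsClosed (S.multipliers : Set (S.HH →L[ℂ] S.HH)) := by
  refine isClosed_of_closure_subset fun x hx b hb => S.good_lim fun ε hε => ?_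
  obtain ⟨y, hy, hxy⟩ := Metric.mem_closure_iff.1 hx (ε / (‖b‖ + 1)) (by positivity)
  refine ⟨y * b, hy b hb, Eventually.of_forall fun n => ?_⟩
  rw [dist_eq_norm] at hxy
  rw [← sub_mul]
  calc ‖(x - y) * b * S.π (S.p n)‖ ≤ ‖(x - y) * b‖ :=
        (norm_mul_le _ _).trans (mul_le_of_le_one_right (norm_nonneg _) (S.norm_P_le n))
    _ ≤ ‖x - y‖ * ‖b‖ := norm_mul_le _ _
    _ ≤ (ε / (‖b‖ + 1)) * (‖b‖ + 1) := by gcongr; linarith
    _ = ε := by field_simp

/-- The counterexample. -/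
def B : StarSubalgebra ℂ (S.HH →L[ℂ] S.HH) :=
  (StarAlgebra.adjoin ℂ (Set.range S.π ∪ Set.range S.v)).topologicalClosure

theorem B_subset_multipliers : (S.B : Set (S.HH →L[ℂ] S.HH)) ⊆ S.multipliers := by
  rw [B, StarSubalgebra.topologicalClosure_coe]
  refine closure_minimal ?_ S.isClosed_multipliers
  rw [← StarSubalgebra.coe_toSubalgebra, StarAlgebra.adjoin_toSubalgebra]
  refine SetLike.coe_subset_coe.2 (Algebra.adjoin_le ?_)
  have hπ : ∀ a, S.π a ∈ S.multipliers := fun c => S.mem_multipliers fun a i =>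
    S.good_of_mem (by rw [← mul_assoc, ← map_mul]; exact S.gen_mem _ _)
  rintro x (hx | hx)
  · rcases hx with ⟨a, rfl⟩ | ⟨k, rfl⟩
    · exact hπ a
    · exact S.mem_multipliers (S.good_v_gen k)
  · rcases hx with ⟨a, ha⟩ | ⟨k, hk⟩
    · have : x = S.π (star a) := by rw [map_star, ha, star_star]
      rw [this]
      exact hπ _
    · have : x = star (S.v k) := by rw [hk, star_star]
      rw [this]
      exact S.mem_multipliers (S.good_vstar_gen k)

theorem good_of_mem_B {b : S.HH →L[ℂ] S.HH} (hb : b ∈ S.B) : S.Good b := by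
  have h1 : S.Good 1 := S.good_of_mem (by simpa [S.v_o] using S.gen_mem 1 S.o)
  simpa using S.B_subset_multipliers hb 1 h1

/-- The base state. -/
def ev (b : S.HH →L[ℂ] S.HH) : ℂ := ⟪S.X S.o, b (S.X S.o)⟫_ℂ

theorem p_X (n : ℕ) : S.π (S.p n) (S.X S.o) = S.X S.o := by
  rw [← S.f_o]
  exact S.f_X S.o n

theorem norm_ev_le (b : S.HH →L[ℂ] S.HH) (n : ℕ) : ‖S.ev b‖ ≤ ‖b * S.π (S.p n)‖ := by
  calc ‖S.ev b‖ ≤ ‖S.X S.o‖ * ‖b (S.X S.o)‖ := norm_inner_le_norm _ _
    _ = ‖(b * S.π (S.p n)) (S.X S.o)‖ := by rw [S.norm_X, one_mul, mul_apply_eq_comp, S.p_X]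
    _ ≤ ‖b * S.π (S.p n)‖ * ‖S.X S.o‖ := ContinuousLinearMap.le_opNorm _ _
    _ = _ := by rw [S.norm_X, mul_one]

/-- Compressions of an element to the standard projections. -/
def defect (b : S.HH →L[ℂ] S.HH) (n : ℕ) : S.HH →L[ℂ] S.HH :=
  S.π (S.p n) * b * S.π (S.p n) - S.ev b • S.π (S.p n)

theorem excise_M {s : S.HH →L[ℂ] S.HH} (hs : s ∈ S.M) :
    Tendsto (fun n => S.defect s n) atTop (𝓝 0) := by
  induction hs using Submodule.span_induction with
  | mem y hy =>
    obtain ⟨⟨a, i⟩, rfl⟩ := hy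
    change Tendsto (fun n => S.defect (S.π a * S.v i) n) atTop (𝓝 0)
    rcases eq_or_ne i S.o with rfl | hi
    · refine squeeze_zero_norm (fun n => ?_) ((S.D S.o).exc a)
      have hc : ⟪(S.D S.o).ξ, S.rep S.o a (S.D S.o).ξ⟫_ℂ = S.ev (S.π a * S.v S.o) := by
        rw [ev, S.v_o, mul_one, S.inner_X, X, π_single, lp.single_apply_self]
      have hf : (S.D S.o).U n * S.p n * star ((S.D S.o).U n) = S.p n := S.f_o n
      rw [hc, hf]
      refine le_trans (le_of_eq ?_) (S.norm_π_le _)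
      simp [defect, S.v_o, map_sub, map_smul, map_mul]
    · have h0 : Tendsto (fun n => S.π (S.p n) * (S.π a * S.v i) * S.π (S.p n)) atTop (𝓝 0) := by
        rw [Metric.tendsto_nhds]
        intro ε hε
        obtain ⟨m, hm⟩ := S.cross_small hi a (half_pos hε)
        filter_upwards [hm, eventually_ge_atTop m] with n hn hmn
        rw [dist_zero_right]
        have h2 : S.p n * S.p m = S.p n := by
          have h := congrArg star (S.p_mul m n hmn)
          rwa [star_mul, (S.p_proj m).isSelfAdjoint.star_eq,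
            (S.p_proj n).isSelfAdjoint.star_eq] at h
        have e : S.π (S.p n) * (S.π a * S.v i) * S.π (S.p n)
            = S.π (S.p n) * S.π (S.f S.o m * a * S.f i n) * S.v i := by
          rw [gen_P, S.f_o]
          simp only [← map_mul, ← mul_assoc, h2]
        rw [e]
        exact lt_of_le_of_lt (S.norm_sandwich _ (S.norm_P_le n) _ _ hn) (half_lt_self hε)
      have hev : S.ev (S.π a * S.v i) = 0 := by
        have h3 : Tendsto (fun n => S.ev (S.π (S.p n) * (S.π a * S.v i) * S.π (S.p n))) atTop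
            (𝓝 (S.ev 0)) := by
          unfold ev
          exact tendsto_const_nhds.inner (((ContinuousLinearMap.apply ℂ S.HH
            (S.X S.o)).continuous.tendsto _).comp h0)
        have h4 : ∀ n, S.ev (S.π (S.p n) * (S.π a * S.v i) * S.π (S.p n))
            = S.ev (S.π a * S.v i) := fun n => by
          rw [ev, ev, mul_apply_eq_comp, mul_apply_eq_comp, S.p_X,
            ← proj_inner ((S.p_proj n).map S.π), S.p_X]
        simp only [h4] at h3
        rw [tendsto_nhds_unique tendsto_const_nhds h3]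
        simp [ev]
      simpa [defect, hev] using h0
  | zero => simp [defect, ev]
  | add y z _ _ hy hz =>
    have := hy.add hz
    rw [add_zero] at this
    refine this.congr fun n => ?_
    simp [defect, ev, add_smul, mul_add, add_mul]
    abel
  | smul c y _ hy =>
    have := hy.const_smul c
    rw [smul_zero] at this
    refine this.congr fun n => ?_
    simp [defect, ev, smul_sub, smul_smul]

/-- The base state is excised on the whole algebra. -/
theorem excise {b : S.HH →L[ℂ] S.HH} (hb : b ∈ S.B) :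
    Tendsto (fun n => S.defect b n) atTop (𝓝 0) := by
  rw [Metric.tendsto_nhds]
  intro ε hε
  obtain ⟨s, hs, hs'⟩ := S.good_of_mem_B hb (ε / 4) (by positivity)
  have h1 := Metric.tendsto_nhds.1 (S.excise_M hs) (ε / 4) (by positivity)
  filter_upwards [hs', h1] with n hn hd
  rw [dist_zero_right] at hd ⊢
  have e : S.defect b n = S.π (S.p n) * ((b - s) * S.π (S.p n)) - S.ev (b - s) • S.π (S.p n)
      + S.defect s n := by
    simp [defect, ev, sub_smul, mul_sub, sub_mul, mul_assoc]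
    abel
  rw [e]
  refine lt_of_le_of_lt (norm_add_le _ _) ?_
  have h2 : ‖S.π (S.p n) * ((b - s) * S.π (S.p n)) - S.ev (b - s) • S.π (S.p n)‖ ≤ ε / 4 + ε / 4 := by
    refine (norm_sub_le _ _).trans (add_le_add ?_ ?_)
    · exact (norm_mul_le _ _).trans ((mul_le_of_le_one_left (norm_nonneg _) (S.norm_P_le n)).trans hn)
    · rw [norm_smul]
      exact (mul_le_of_le_one_right (norm_nonneg _) (S.norm_P_le n)).trans
        ((S.norm_ev_le _ n).trans hn)
  linarith

end Setting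

end Vale.Agent.P070
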