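import Mathlib

/-! Shared definitions and module interfaces for P070 (Naimark's problem). -/

noncomputable section

open Filter Topology
open scoped InnerProductSpace ENNReal

namespace Vale.Agent.P070

universe u v w

/-- The separable infinite-dimensional Hilbert space. -/
abbrev E2 : Type := lp (fun _ : ℕ => ℂ) 2

/-- The Hilbert space of the n-th matrix level. -/
abbrev Euc (n : ℕ) : Type := EuclideanSpace ℂ (Fin (2 ^ n))

/-- Irreducibility: nonzero, no closed invariant subspace other than bot and top. -/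
def Irred {A : Type*} {H : Type*} [NormedAddCommGroup H] [InnerProductSpace ℂ H]
    (π : A → (H →L[ℂ] H)) : Prop :=
  (∃ a, π a ≠ 0) ∧
    ∀ V : Submodule ℂ H, IsClosed (V : Set H) → (∀ a, ∀ x ∈ V, π a x ∈ V) → V = ⊥ ∨ V = ⊤

/-- Unitary equivalence of representations. -/
def UEquiv {A : Type*} {H : Type*} {K : Type*} [NormedAddCommGroup H] [InnerProductSpace ℂ H]
    [NormedAddCommGroup K] [InnerProductSpace ℂ K]
    (π : A → (H →L[ℂ] H)) (σ : A → (K →L[ℂ] K)) : Prop :=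
  ∃ U : H ≃ₗᵢ[ℂ] K, ∀ a x, U (π a x) = σ a (U x)

/-- A unit vector excised by unitary conjugates of the projections p k, the unitaries being
compatible on the complements. -/
structure Excised {A : Type*} [CStarAlgebra A] (p : ℕ → A) {H : Type*} [NormedAddCommGroup H]
    [InnerProductSpace ℂ H] [CompleteSpace H] (π : A →⋆ₐ[ℂ] (H →L[ℂ] H)) where
  ξ : H
  norm_ξ : ‖ξ‖ = 1
  U : ℕ → A
  U_mem : ∀ k, U k ∈ unitary A
  U_compat : ∀ j k, j ≤ k → U k * (1 - p j) = U j * (1 - p j)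
  fix : ∀ k, π (U k * p k * star (U k)) ξ = ξ
  exc : ∀ a : A, Tendsto
    (fun k => ‖(U k * p k * star (U k)) * a * (U k * p k * star (U k))
      - ⟪ξ, π a ξ⟫_ℂ • (U k * p k * star (U k))‖) atTop (𝓝 0)

/-- The diagonal projection of level n onto the coordinates divisible by 2^k. -/
def Pk (n k : ℕ) : Euc n →L[ℂ] Euc n :=
  Matrix.toEuclideanCLM (n := Fin (2 ^ n)) (𝕜 := ℂ)
    (Matrix.diagonal fun s : Fin (2 ^ n) => if 2 ^ k ∣ (s : ℕ) then (1 : ℂ) else 0)

/-- Rank of an operator. -/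
def rk {H : Type*} [NormedAddCommGroup H] [InnerProductSpace ℂ H] (T : H →L[ℂ] H) : ℕ :=
  Module.finrank ℂ (LinearMap.range (T : H →ₗ[ℂ] H))

/-- A dyadic tower of matrix algebras with dense union, and the standard projections. -/
structure Tower (A : Type*) [CStarAlgebra A] where
  φ : ∀ n, (Euc n →L[ℂ] Euc n) →⋆ₐ[ℂ] A
  φ_inj : ∀ n, Function.Injective (φ n)
  φ_up : ∀ n T, ∃ T', φ (n + 1) T' = φ n T ∧ rk T' = 2 * rk T
  dense : Dense (⋃ n, Set.range (φ n))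
  p : ℕ → A
  p_spec : ∀ k n, k ≤ n → φ n (Pk n k) = p k

/-- Hahn-Banach majorisation at a vector state of an irreducible representation. -/
def MajStatement : Prop :=
  ∀ (A : Type) [CStarAlgebra A] (H : Type) [NormedAddCommGroup H] [InnerProductSpace ℂ H]
    [CompleteSpace H] (π : A →⋆ₐ[ℂ] (H →L[ℂ] H)), Irred π →
    ∀ (a : A), IsSelfAdjoint a → ∀ ξ : H, ‖ξ‖ = 1 → ∀ δ : ℝ, 0 < δ →
      ∃ c d : A, ∃ t : ℝ, t < (⟪ξ, π a ξ⟫_ℂ).re + δ ∧ ‖π c ξ‖ ^ 2 < δ ∧
        (t : ℂ) • (1 : A) + star c * c - a = star d * d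

/-- One excision stage. -/
def StepStatement : Prop :=
  ∀ (A : Type) [CStarAlgebra A] (T : Tower A) (H : Type) [NormedAddCommGroup H]
    [InnerProductSpace ℂ H] [CompleteSpace H] (π : A →⋆ₐ[ℂ] (H →L[ℂ] H)), Irred π →
    ∀ (N : ℕ) (η : H), ‖η‖ = 1 → π (T.p N) η = η → ∀ (F : Finset A) (ε : ℝ), 0 < ε →
      ∃ M, N < M ∧ ∃ V ∈ unitary A, V * (1 - T.p N) = 1 - T.p N ∧
        ∃ η' : H, ‖η'‖ = 1 ∧ ‖η' - η‖ ≤ ε ∧ π (V * T.p M * star V) η' = η' ∧
          ∀ a ∈ F, ‖(V * T.p M * star V) * a * (V * T.p M * star V)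
            - ⟪η', π a η'⟫_ℂ • (V * T.p M * star V)‖ ≤ ε

/-- Every irreducible representation is excised somewhere. -/
def ExcisionStatement : Prop :=
  ∀ (A : Type) [CStarAlgebra A] (T : Tower A) (π : A →⋆ₐ[ℂ] (E2 →L[ℂ] E2)), Irred π →
    Nonempty (Excised T.p π)

/-- Irreducible representations of a tower algebra live on E2. -/
def SepStatement.{uu} : Prop :=
  ∀ (A : Type) [CStarAlgebra A] (_T : Tower A) (K : Type uu) [NormedAddCommGroup K]
    [InnerProductSpace ℂ K] [CompleteSpace K] (σ : A →⋆ₐ[ℂ] (K →L[ℂ] K)), Irred σ →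
      ∃ π : A →⋆ₐ[ℂ] (E2 →L[ℂ] E2), Irred π ∧ UEquiv σ π

/-- A tower algebra with an irreducible base representation excised by the standard projections. -/
def BaseStatement : Prop :=
  ∃ (A : Type) (_ : CStarAlgebra A) (T : Tower A) (π : A →⋆ₐ[ℂ] (E2 →L[ℂ] E2)),
    Irred π ∧ ∃ D : Excised T.p π, ∀ k, D.U k = 1

/-- The answer. -/
def Final.{uu, vv, ww} : Prop :=
  ∃ (B : Type) (_ : CStarAlgebra B), Nontrivial B ∧
    (∃ (H : Type) (_ : NormedAddCommGroup H) (_ : InnerProductSpace ℂ H) (_ : CompleteSpace H)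
      (π : B →⋆ₙₐ[ℂ] (H →L[ℂ] H)), Irred π) ∧
    (∀ (H : Type uu) [NormedAddCommGroup H] [InnerProductSpace ℂ H] [CompleteSpace H]
      (K : Type vv) [NormedAddCommGroup K] [InnerProductSpace ℂ K] [CompleteSpace K]
      (π : B →⋆ₙₐ[ℂ] (H →L[ℂ] H)) (σ : B →⋆ₙₐ[ℂ] (K →L[ℂ] K)),
      Irred π → Irred σ → UEquiv π σ) ∧
    (∀ (H : Type ww) [NormedAddCommGroup H] [InnerProductSpace ℂ H] [CompleteSpace H],
      ¬ ∃ e : B →⋆ₙₐ[ℂ] (H →L[ℂ] H), Function.Injective e ∧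
          ∀ S : H →L[ℂ] H, (∃ b, e b = S) ↔ IsCompactOperator S)

end Vale.Agent.P070
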