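import Vale.Agent.P070.Defs

/-! Diagonal representations on Hilbert sums, cyclic vectors and equivalence. -/

noncomputable section

open Filter Topology
open scoped InnerProductSpace ENNReal

namespace Vale.Agent.P070

variable {A : Type*} [CStarAlgebra A] {ι : Type*} {G : ι → Type*}
  [∀ i, NormedAddCommGroup (G i)] [∀ i, InnerProductSpace ℂ (G i)] [∀ i, CompleteSpace (G i)]
  (π : ∀ i, A →⋆ₐ[ℂ] (G i →L[ℂ] G i))

theorem diag_memℓp (a : A) (x : lp G 2) : Memℓp (fun i => π i a (x i)) 2 := by
  apply memℓp_gen
  have h2 : (2 : ℝ≥0∞).toReal = 2 := by simp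
  have hs := (lp.memℓp x).summable (by simp)
  rw [h2] at hs ⊢
  refine Summable.of_nonneg_of_le (fun i => by positivity) (fun i => ?_) (hs.mul_left (‖a‖ ^ (2:ℝ)))
  rw [← Real.mul_rpow (norm_nonneg _) (norm_nonneg _)]
  refine Real.rpow_le_rpow (norm_nonneg _) ?_ (by norm_num)
  exact ((π i a).le_opNorm _).trans
    (mul_le_mul_of_nonneg_right (NonUnitalStarAlgHom.norm_apply_le (π i) a) (norm_nonneg _))

/-- The diagonal operator of a. -/
def diagOp (a : A) : lp G 2 →L[ℂ] lp G 2 :=
  LinearMap.mkContinuous
    { toFun := fun x => (⟨fun i => π i a (x i), diag_memℓp π a x⟩ : lp G 2)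
      map_add' := fun x y => by
        ext i
        exact map_add (π i a) (x i) (y i)
      map_smul' := fun c x => by ext i; simp }
    ‖a‖ (fun x => by
      have h2 : 0 < (2 : ℝ≥0∞).toReal := by simp
      apply lp.norm_le_of_forall_sum_le h2 (by positivity)
      intro s
      simp only [ENNReal.toReal_ofNat, LinearMap.coe_mk, AddHom.coe_mk]
      rw [Real.mul_rpow (norm_nonneg _) (norm_nonneg _)]
      have hx := lp.sum_rpow_le_norm_rpow h2 x s
      simp only [ENNReal.toReal_ofNat] at hx
      refine le_trans ?_ (mul_le_mul_of_nonneg_left hx (by positivity))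
      rw [Finset.mul_sum]
      refine Finset.sum_le_sum fun i _ => ?_
      rw [← Real.mul_rpow (norm_nonneg _) (norm_nonneg _)]
      refine Real.rpow_le_rpow (norm_nonneg _) ?_ (by norm_num)
      exact ((π i a).le_opNorm _).trans
        (mul_le_mul_of_nonneg_right (NonUnitalStarAlgHom.norm_apply_le (π i) a) (norm_nonneg _)))

@[simp] theorem diagOp_apply (a : A) (x : lp G 2) (i : ι) :
    (diagOp π a x) i = π i a (x i) := rfl

/-- The Hilbert sum of a family of representations. -/
def diag : A →⋆ₐ[ℂ] (lp G 2 →L[ℂ] lp G 2) where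
  toFun := diagOp π
  map_one' := by ext x i; simp
  map_mul' a b := by ext x i; simp
  map_zero' := by ext x i; simp
  map_add' a b := by ext x i; simp
  commutes' r := by ext x i; simp [Algebra.algebraMap_eq_smul_one]
  map_star' a := by
    rw [ContinuousLinearMap.star_eq_adjoint, ContinuousLinearMap.eq_adjoint_iff]
    intro x y
    rw [lp.inner_eq_tsum, lp.inner_eq_tsum]
    refine tsum_congr fun i => ?_
    rw [diagOp_apply, diagOp_apply, map_star, ContinuousLinearMap.star_eq_adjoint,
      ContinuousLinearMap.adjoint_inner_left]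

@[simp] theorem diag_apply (a : A) (x : lp G 2) (i : ι) :
    (diag π a x) i = π i a (x i) := rfl

theorem diag_single [DecidableEq ι] (a : A) (i : ι) (y : G i) :
    diag π a (lp.single 2 i y) = lp.single 2 i (π i a y) := by
  ext j
  rcases eq_or_ne j i with rfl | h
  · simp
  · simp [h]

end Vale.Agent.P070
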