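import Vale.Agent.P070.TowerFacts

/-! The excision schedule: from one stage to a unit vector excised by compatible conjugates of the
standard projections. -/

noncomputable section

open Filter Topology
open scoped InnerProductSpace

namespace Vale.Agent.P070

namespace Schedule

variable {A : Type} [CStarAlgebra A] (T : Tower A) (π : A →⋆ₐ[ℂ] (E2 →L[ℂ] E2))

/-- The conjugate of `p k` by `u`. -/
def cj (u : A) (k : ℕ) : A := u * T.p k * star u

/-- A stage of the schedule. -/
structure Stage where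
  N : ℕ
  U : A
  ξ : E2
  U_mem : U ∈ unitary A
  norm_ξ : ‖ξ‖ = 1
  fix : π (cj T U N) ξ = ξ

omit T in
theorem apply_apply (a b : A) (x : E2) : π a (π b x) = π (a * b) x := by
  rw [map_mul]; rfl

omit T in
theorem inner_conj (u : A) (a : A) (x : E2) :
    ⟪x, π (star u * a * u) x⟫_ℂ = ⟪π u x, π a (π u x)⟫_ℂ := by
  rw [← apply_apply, ← apply_apply, map_star, ContinuousLinearMap.star_eq_adjoint,
    ContinuousLinearMap.adjoint_inner_right]

omit T in
theorem norm_apply_unitary {u : A} (hu : u ∈ unitary A) (x : E2) : ‖π u x‖ = ‖x‖ :=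
  ContinuousLinearMap.norm_map_of_mem_unitary (Unitary.map_mem π hu) x

theorem exists_next (hstep : StepStatement) (hπ : Irred π) (S : Stage T π) (F : Finset A) (ε : ℝ)
    (hε : 0 < ε) :
    ∃ S' : Stage T π, S.N < S'.N ∧ S'.U * (1 - T.p S.N) = S.U * (1 - T.p S.N) ∧
      ‖S'.ξ - S.ξ‖ ≤ ε ∧ ∀ a ∈ F, ‖cj T S'.U S'.N * a * cj T S'.U S'.N
        - ⟪S'.ξ, π a S'.ξ⟫_ℂ • cj T S'.U S'.N‖ ≤ ε := by
  classical
  have hU := Unitary.mem_iff.1 S.U_mem
  have hη : π (T.p S.N) (π (star S.U) S.ξ) = π (star S.U) S.ξ := by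
    conv_rhs => rw [← S.fix, apply_apply]
    rw [apply_apply, cj, ← mul_assoc, ← mul_assoc, hU.1, one_mul]
  have hη1 : ‖π (star S.U) S.ξ‖ = 1 :=
    (norm_apply_unitary π (Unitary.star_mem S.U_mem) _).trans S.norm_ξ
  obtain ⟨M, hM, V, hV, hVN, η', hη', hclose, hfix, hexc⟩ := hstep A T E2 π hπ S.N
    (π (star S.U) S.ξ) hη1 hη (F.image fun a => star S.U * a * S.U) ε hε
  refine ⟨⟨M, S.U * V, π S.U η', mul_mem S.U_mem hV, (norm_apply_unitary π S.U_mem _).trans hη', ?_⟩,
    hM, ?_, ?_, ?_⟩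
  · have : cj T (S.U * V) M * S.U = S.U * (V * T.p M * star V) := by
      simp only [cj, star_mul, mul_assoc, hU.1, mul_one]
    rw [apply_apply, this, ← apply_apply, hfix]
  · rw [mul_assoc, hVN]
  · have : π S.U η' - S.ξ = π S.U (η' - π (star S.U) S.ξ) := by
      rw [map_sub, apply_apply, hU.2, map_one]; rfl
    rw [show (⟨M, S.U * V, π S.U η', _, _, _⟩ : Stage T π).ξ = π S.U η' from rfl, this,
      norm_apply_unitary π S.U_mem]
    exact hclose
  · intro a ha
    have h := hexc _ (Finset.mem_image_of_mem _ ha)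
    rw [inner_conj] at h
    set g := V * T.p M * star V
    have e : cj T (S.U * V) M = S.U * g * star S.U := by
      simp only [cj, g, star_mul, mul_assoc]
    show ‖cj T (S.U * V) M * a * cj T (S.U * V) M
      - ⟪π S.U η', π a (π S.U η')⟫_ℂ • cj T (S.U * V) M‖ ≤ ε
    simp only [e]
    have e2 : S.U * g * star S.U * a * (S.U * g * star S.U)
        - ⟪π S.U η', π a (π S.U η')⟫_ℂ • (S.U * g * star S.U)
        = S.U * (g * (star S.U * a * S.U) * g - ⟪π S.U η', π a (π S.U η')⟫_ℂ • g) * star S.U := by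
      simp only [mul_sub, sub_mul, mul_smul_comm, smul_mul_assoc, mul_assoc]
    rw [e2]
    refine le_trans ?_ h
    rw [CStarRing.norm_mul_mem_unitary _ (Unitary.star_mem S.U_mem),
      CStarRing.norm_mem_unitary_mul _ S.U_mem]

/-- Images of bases of the levels up to `s`. -/
def testSet (s : ℕ) : Finset A := by
  classical
  exact (Finset.range (s + 1)).biUnion fun n =>
    Finset.univ.image fun i => T.φ n (Module.finBasis ℂ (Euc n →L[ℂ] Euc n) i)

theorem mem_testSet {n s : ℕ} (h : n ≤ s) (i) :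
    T.φ n (Module.finBasis ℂ (Euc n →L[ℂ] Euc n) i) ∈ testSet T s := by
  classical
  unfold testSet
  exact Finset.mem_biUnion.2 ⟨n, Finset.mem_range.2 (by omega),
    Finset.mem_image_of_mem _ (Finset.mem_univ i)⟩

variable (hstep : StepStatement) (hπ : Irred π)

/-- The first stage. -/
def stage0 : Stage T π where
  N := 0
  U := 1
  ξ := lp.single 2 0 1
  U_mem := one_mem _
  norm_ξ := by simp [lp.norm_single]
  fix := by simp [cj, T.p_zero]

/-- The stages. -/
def stage : ℕ → Stage T π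
  | 0 => stage0 T π
  | s + 1 => (exists_next T π hstep hπ (stage s) (testSet T s) ((1 / 2) ^ s) (by positivity)).choose

theorem stage_spec (s : ℕ) :
    (stage T π hstep hπ s).N < (stage T π hstep hπ (s + 1)).N ∧
    (stage T π hstep hπ (s + 1)).U * (1 - T.p (stage T π hstep hπ s).N)
      = (stage T π hstep hπ s).U * (1 - T.p (stage T π hstep hπ s).N) ∧
    ‖(stage T π hstep hπ (s + 1)).ξ - (stage T π hstep hπ s).ξ‖ ≤ (1 / 2) ^ s ∧
    ∀ a ∈ testSet T s,
      ‖cj T (stage T π hstep hπ (s + 1)).U (stage T π hstep hπ (s + 1)).N * a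
          * cj T (stage T π hstep hπ (s + 1)).U (stage T π hstep hπ (s + 1)).N
        - ⟪(stage T π hstep hπ (s + 1)).ξ, π a (stage T π hstep hπ (s + 1)).ξ⟫_ℂ
          • cj T (stage T π hstep hπ (s + 1)).U (stage T π hstep hπ (s + 1)).N‖ ≤ (1 / 2) ^ s :=
  (exists_next T π hstep hπ (stage T π hstep hπ s) (testSet T s) ((1 / 2) ^ s)
    (by positivity)).choose_spec


theorem N_strictMono : StrictMono fun s => (stage T π hstep hπ s).N :=
  strictMono_nat_of_lt_succ fun s => (stage_spec T π hstep hπ s).1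

theorem le_N (s : ℕ) : s ≤ (stage T π hstep hπ s).N := (N_strictMono T π hstep hπ).id_le s

omit π hstep hπ in
theorem one_sub_mul {j k : ℕ} (h : j ≤ k) : (1 - T.p k) * (1 - T.p j) = 1 - T.p j := by
  rw [sub_mul, one_mul, mul_sub, mul_one, T.p_mul' h, sub_self, sub_zero]

theorem U_compat {s t : ℕ} (hst : s ≤ t) {j : ℕ} (hj : j ≤ (stage T π hstep hπ s).N) :
    (stage T π hstep hπ t).U * (1 - T.p j) = (stage T π hstep hπ s).U * (1 - T.p j) := by
  induction t, hst using Nat.le_induction with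
  | base => rfl
  | succ t ht ih =>
    have hjt : j ≤ (stage T π hstep hπ t).N := hj.trans ((N_strictMono T π hstep hπ).monotone ht)
    rw [← ih, ← one_sub_mul T hjt, ← mul_assoc, (stage_spec T π hstep hπ t).2.1, mul_assoc]

/-- The projections that excise. -/
abbrev f (k : ℕ) : A := cj T (stage T π hstep hπ k).U k

theorem cj_eq {t k : ℕ} (hk : k ≤ t) :
    cj T (stage T π hstep hπ t).U k = f T π hstep hπ k := by
  have key : ∀ u ∈ unitary A, cj T u k = 1 - u * (1 - T.p k) * star (u * (1 - T.p k)) := by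
    intro u hu
    have hq : IsStarProjection (1 - T.p k) := (T.p_proj k).one_sub
    rw [star_mul, hq.isSelfAdjoint.star_eq, ← mul_assoc, mul_assoc u, hq.isIdempotentElem.eq,
      mul_sub, mul_one, sub_mul, (Unitary.mem_iff.1 hu).2, sub_sub_cancel]
    rfl
  rw [key _ (stage T π hstep hπ t).U_mem, f, key _ (stage T π hstep hπ k).U_mem,
    U_compat T π hstep hπ hk (le_N T π hstep hπ k)]

theorem cj_N (s : ℕ) :
    cj T (stage T π hstep hπ s).U (stage T π hstep hπ s).N
      = f T π hstep hπ (stage T π hstep hπ s).N := by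
  set N := (stage T π hstep hπ s).N
  have h : (stage T π hstep hπ N).U * (1 - T.p N) = (stage T π hstep hπ s).U * (1 - T.p N) :=
    U_compat T π hstep hπ (le_N T π hstep hπ s) le_rfl
  have key : ∀ u ∈ unitary A, cj T u N = 1 - u * (1 - T.p N) * star (u * (1 - T.p N)) := by
    intro u hu
    have hq : IsStarProjection (1 - T.p N) := (T.p_proj N).one_sub
    rw [star_mul, hq.isSelfAdjoint.star_eq, ← mul_assoc, mul_assoc u, hq.isIdempotentElem.eq,
      mul_sub, mul_one, sub_mul, (Unitary.mem_iff.1 hu).2, sub_sub_cancel]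
    rfl
  rw [key _ (stage T π hstep hπ s).U_mem, f, key _ (stage T π hstep hπ N).U_mem, h]

theorem f_proj (k : ℕ) : IsStarProjection (f T π hstep hπ k) :=
  (T.p_proj k).map (Unitary.conjStarAlgAut ℂ A ⟨_, (stage T π hstep hπ k).U_mem⟩)

theorem f_mul {j k : ℕ} (h : j ≤ k) :
    f T π hstep hπ j * f T π hstep hπ k = f T π hstep hπ k
    ∧ f T π hstep hπ k * f T π hstep hπ j = f T π hstep hπ k := by
  have h1 : f T π hstep hπ j * f T π hstep hπ k = f T π hstep hπ k := by
    rw [← cj_eq T π hstep hπ h]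
    simp only [f, cj]
    rw [mul_assoc (_ * _) (star _), ← mul_assoc (star _), ← mul_assoc (star _),
      (Unitary.mem_iff.1 (stage T π hstep hπ k).U_mem).1, one_mul, ← mul_assoc,
      mul_assoc _ (T.p j), T.p_mul h]
  refine ⟨h1, ?_⟩
  have := congrArg star h1
  rwa [star_mul, (f_proj T π hstep hπ j).isSelfAdjoint.star_eq,
    (f_proj T π hstep hπ k).isSelfAdjoint.star_eq] at this

/-- The limit vector. -/
def ξlim : E2 := limUnder atTop fun s => (stage T π hstep hπ s).ξ

theorem tendsto_ξ :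
    Tendsto (fun s => (stage T π hstep hπ s).ξ) atTop (𝓝 (ξlim T π hstep hπ)) := by
  refine (cauchySeq_of_le_geometric (1 / 2) 1 (by norm_num) fun s => ?_).tendsto_limUnder
  rw [one_mul, dist_eq_norm, norm_sub_rev]
  exact (stage_spec T π hstep hπ s).2.2.1

theorem norm_ξlim : ‖ξlim T π hstep hπ‖ = 1 := by
  refine tendsto_nhds_unique (tendsto_ξ T π hstep hπ).norm ?_
  simpa only [(stage T π hstep hπ _).norm_ξ] using tendsto_const_nhds

theorem fix_ξlim (k : ℕ) : π (f T π hstep hπ k) (ξlim T π hstep hπ) = ξlim T π hstep hπ := by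
  refine tendsto_nhds_unique ?_ (tendsto_ξ T π hstep hπ)
  refine (((π (f T π hstep hπ k)).continuous.tendsto _).comp (tendsto_ξ T π hstep hπ)).congr' ?_
  filter_upwards [eventually_ge_atTop k] with s hs
  have h := (stage T π hstep hπ s).fix
  rw [cj_N] at h
  show π (f T π hstep hπ k) (stage T π hstep hπ s).ξ = _
  rw [← h, apply_apply, (f_mul T π hstep hπ (hs.trans (le_N T π hstep hπ s))).1, h]

/-- The excision defect. -/
def defect (k : ℕ) (a : A) : A :=
  f T π hstep hπ k * a * f T π hstep hπ k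
    - ⟪ξlim T π hstep hπ, π a (ξlim T π hstep hπ)⟫_ℂ • f T π hstep hπ k

theorem defect_add (k : ℕ) (a b : A) :
    defect T π hstep hπ k (a + b) = defect T π hstep hπ k a + defect T π hstep hπ k b := by
  simp only [defect, map_add, add_apply, inner_add_right, mul_add, add_mul,
    add_smul]
  abel

theorem defect_smul (k : ℕ) (c : ℂ) (a : A) :
    defect T π hstep hπ k (c • a) = c • defect T π hstep hπ k a := by
  simp only [defect, map_smul, smul_apply, inner_smul_right, mul_smul_comm,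
    smul_mul_assoc, smul_sub, smul_smul]

theorem norm_f_le (k : ℕ) : ‖f T π hstep hπ k‖ ≤ 1 :=
  (f_proj T π hstep hπ k).norm_le

theorem norm_defect_le (k : ℕ) (a : A) : ‖defect T π hstep hπ k a‖ ≤ 2 * ‖a‖ := by
  have hf := norm_f_le T π hstep hπ k
  have hc : ‖⟪ξlim T π hstep hπ, π a (ξlim T π hstep hπ)⟫_ℂ‖ ≤ ‖a‖ := by
    refine (norm_inner_le_norm _ _).trans ?_
    rw [norm_ξlim, one_mul]
    refine ((π a).le_opNorm _).trans ?_
    rw [norm_ξlim, mul_one]
    exact NonUnitalStarAlgHom.norm_apply_le π a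
  calc ‖defect T π hstep hπ k a‖
      ≤ ‖f T π hstep hπ k * a * f T π hstep hπ k‖
          + ‖⟪ξlim T π hstep hπ, π a (ξlim T π hstep hπ)⟫_ℂ • f T π hstep hπ k‖ := norm_sub_le _ _
    _ ≤ ‖f T π hstep hπ k‖ * ‖a‖ * ‖f T π hstep hπ k‖
          + ‖⟪ξlim T π hstep hπ, π a (ξlim T π hstep hπ)⟫_ℂ‖ * ‖f T π hstep hπ k‖ :=
        add_le_add (norm_mul₃_le ..) (norm_smul_le _ _)
    _ ≤ 1 * ‖a‖ * 1 + ‖a‖ * 1 := by gcongr
    _ = 2 * ‖a‖ := by ring

theorem tendsto_test (n : ℕ) (i) :
    Tendsto (fun k => ‖defect T π hstep hπ k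
      (T.φ n (Module.finBasis ℂ (Euc n →L[ℂ] Euc n) i))‖) atTop (𝓝 0) := by
  set a := T.φ n (Module.finBasis ℂ (Euc n →L[ℂ] Euc n) i)
  set c := ⟪ξlim T π hstep hπ, π a (ξlim T π hstep hπ)⟫_ℂ
  have hcont : Tendsto (fun s => (1 / 2 : ℝ) ^ s
      + ‖⟪(stage T π hstep hπ (s + 1)).ξ, π a (stage T π hstep hπ (s + 1)).ξ⟫_ℂ - c‖)
      atTop (𝓝 0) := by
    have hp : Tendsto (fun s => (1 / 2 : ℝ) ^ s) atTop (𝓝 0) :=
      tendsto_pow_atTop_nhds_zero_of_lt_one (by norm_num) (by norm_num)
    have hx := (tendsto_ξ T π hstep hπ).comp (tendsto_add_atTop_nat 1)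
    have := (hx.inner (((π a).continuous.tendsto _).comp hx)).sub_const c
    simpa [c] using hp.add this.norm
  refine NormedAddGroup.tendsto_nhds_zero.2 fun δ hδ => ?_
  obtain ⟨s, hs, hns⟩ := ((hcont.eventually (gt_mem_nhds hδ)).and (eventually_ge_atTop n)).exists
  filter_upwards [eventually_ge_atTop (stage T π hstep hπ (s + 1)).N] with k hk
  rw [norm_norm]
  refine lt_of_le_of_lt ?_ hs
  have hest := (stage_spec T π hstep hπ s).2.2.2 a (mem_testSet T hns i)
  rw [cj_N] at hest
  set g := f T π hstep hπ (stage T π hstep hπ (s + 1)).N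
  set fk := f T π hstep hπ k
  set cs := ⟪(stage T π hstep hπ (s + 1)).ξ, π a (stage T π hstep hπ (s + 1)).ξ⟫_ℂ
  obtain ⟨h1, h2⟩ := f_mul T π hstep hπ hk
  have hf : ‖fk‖ ≤ 1 := norm_f_le T π hstep hπ k
  have e : defect T π hstep hπ k a = fk * (g * a * g - cs • g) * fk + (cs - c) • fk := by
    have hff : fk * fk = fk := (f_proj T π hstep hπ k).isIdempotentElem.eq
    have e1 : fk * (g * a * g) * fk = fk * a * fk := by
      calc fk * (g * a * g) * fk = (fk * g) * a * (g * fk) := by simp only [mul_assoc]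
        _ = fk * a * fk := by rw [h2, h1]
    rw [mul_sub, sub_mul, e1, mul_smul_comm, h2, smul_mul_assoc, hff, sub_smul, defect]
    abel
  rw [e]
  refine (norm_add_le _ _).trans (add_le_add ?_ ?_)
  · calc ‖fk * (g * a * g - cs • g) * fk‖ ≤ ‖fk‖ * ‖g * a * g - cs • g‖ * ‖fk‖ := norm_mul₃_le ..
      _ ≤ 1 * (1 / 2 : ℝ) ^ s * 1 := by gcongr
      _ = _ := by ring
  · calc ‖(cs - c) • fk‖ ≤ ‖cs - c‖ * ‖fk‖ := norm_smul_le _ _
      _ ≤ ‖cs - c‖ * 1 := by gcongr
      _ = _ := mul_one _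

theorem tendsto_defect (a : A) :
    Tendsto (fun k => ‖defect T π hstep hπ k a‖) atTop (𝓝 0) := by
  have hlev : ∀ n (S : Euc n →L[ℂ] Euc n),
      Tendsto (fun k => defect T π hstep hπ k (T.φ n S)) atTop (𝓝 0) := by
    intro n S
    have hsum : ∀ k, defect T π hstep hπ k (T.φ n S)
        = ∑ i, (Module.finBasis ℂ (Euc n →L[ℂ] Euc n)).repr S i •
            defect T π hstep hπ k (T.φ n (Module.finBasis ℂ (Euc n →L[ℂ] Euc n) i)) := by
      intro k
      let L : A →ₗ[ℂ] A :=
        { toFun := defect T π hstep hπ k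
          map_add' := defect_add T π hstep hπ k
          map_smul' := defect_smul T π hstep hπ k }
      show L (T.φ n S) = _
      conv_lhs => rw [← (Module.finBasis ℂ (Euc n →L[ℂ] Euc n)).sum_repr S]
      simp only [map_sum, map_smul]
      rfl
    simp only [hsum]
    have := tendsto_finsetSum Finset.univ fun i _ =>
      (tendsto_zero_iff_norm_tendsto_zero.2 (tendsto_test T π hstep hπ n i)).const_smul
        ((Module.finBasis ℂ (Euc n →L[ℂ] Euc n)).repr S i)
    simpa using this
  refine NormedAddGroup.tendsto_nhds_zero.2 fun δ hδ => ?_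
  obtain ⟨b, hb, hab⟩ := Metric.mem_closure_iff.1 (T.dense a) (δ / 4) (by positivity)
  obtain ⟨n, S, rfl⟩ := Set.mem_iUnion.1 hb
  filter_upwards [(NormedAddGroup.tendsto_nhds_zero.1 (hlev n S)) (δ / 2) (by positivity)]
    with k hk
  rw [norm_norm]
  have := norm_defect_le T π hstep hπ k (a - T.φ n S)
  have e : defect T π hstep hπ k a
      = defect T π hstep hπ k (a - T.φ n S) + defect T π hstep hπ k (T.φ n S) := by
    rw [← defect_add, sub_add_cancel]
  rw [e]
  refine (norm_add_le _ _).trans_lt ?_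
  rw [dist_eq_norm] at hab
  linarith

end Schedule

open Schedule in
/-- Every irreducible representation on `E2` is excised. -/
theorem excision (hstep : StepStatement) : ExcisionStatement := fun _ _ T π hπ =>
  ⟨{ ξ := ξlim T π hstep hπ
     norm_ξ := norm_ξlim T π hstep hπ
     U := fun k => (stage T π hstep hπ k).U
     U_mem := fun k => (stage T π hstep hπ k).U_mem
     U_compat := fun j _ hjk => U_compat T π hstep hπ hjk (le_N T π hstep hπ j)
     fix := fix_ξlim T π hstep hπ
     exc := tendsto_defect T π hstep hπ }⟩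

end Vale.Agent.P070
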