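import Vale.Agent.P070.TowerFacts

/-! Fitting a conjugate of a standard projection between two subspaces. -/

noncomputable section

open scoped InnerProductSpace

namespace Vale.Agent.P070.Fit

theorem exists_between {E : Type*} [AddCommGroup E] [Module ℂ E] [FiniteDimensional ℂ E]
    (G' G : Submodule ℂ E) (h : G' ≤ G) (d : ℕ) (h1 : Module.finrank ℂ G' ≤ d)
    (h2 : d ≤ Module.finrank ℂ G) :
    ∃ W : Submodule ℂ E, G' ≤ W ∧ W ≤ G ∧ Module.finrank ℂ W = d := by
  induction d, h1 using Nat.le_induction with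
  | base => exact ⟨G', le_rfl, h, rfl⟩
  | succ d hd ih =>
    obtain ⟨W, hW1, hW2, hW3⟩ := ih (by omega)
    have hne : W ≠ G := fun e => by subst e; omega
    obtain ⟨x, hxG, hxW⟩ := SetLike.exists_of_lt (lt_of_le_of_ne hW2 hne)
    refine ⟨W ⊔ ℂ ∙ x, hW1.trans le_sup_left, sup_le hW2 ((Submodule.span_singleton_le_iff_mem _ _).2 hxG), ?_⟩
    rw [Submodule.finrank_sup_span_singleton hxW, hW3]

theorem Pk_single (n k : ℕ) (s : Fin (2 ^ n)) :
    Pk n k (EuclideanSpace.single s 1) =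
      if 2 ^ k ∣ (s : ℕ) then EuclideanSpace.single s 1 else 0 := by
  ext t
  rw [Pk]
  simp only [Matrix.ofLp_toEuclideanCLM, Matrix.mulVec_diagonal]
  split_ifs <;> rcases eq_or_ne t s with rfl | h <;> simp_all

theorem card_dvd (n k : ℕ) (h : k ≤ n) :
    Fintype.card {s : Fin (2 ^ n) // 2 ^ k ∣ (s : ℕ)} = 2 ^ (n - k) := by
  have hn : 2 ^ n = 2 ^ (n - k) * 2 ^ k := by rw [← pow_add, Nat.sub_add_cancel h]
  rw [← Fintype.card_fin (2 ^ (n - k))]
  refine Fintype.card_congr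
    { toFun := fun s => ⟨(s.1 : ℕ) / 2 ^ k, by
        rw [Nat.div_lt_iff_lt_mul (by positivity), ← hn]; exact s.1.2⟩
      invFun := fun q => ⟨⟨q.1 * 2 ^ k, by
        rw [hn]; exact Nat.mul_lt_mul_of_pos_right q.2 (by positivity)⟩, dvd_mul_left _ _⟩
      left_inv := fun s => Subtype.ext (Fin.ext (Nat.div_mul_cancel s.2))
      right_inv := fun q => Fin.ext (Nat.mul_div_cancel _ (by positivity)) }

theorem exists_unitary (n N M : ℕ) (hNM : N ≤ M) (hM : M ≤ n) (G' G : Submodule ℂ (Euc n))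
    (hG : G' ≤ G) (hGN : ∀ x ∈ G, Pk n N x = x)
    (h1 : Module.finrank ℂ G' ≤ 2 ^ (n - M)) (h2 : 2 ^ (n - M) ≤ Module.finrank ℂ G) :
    ∃ V ∈ unitary (Euc n →L[ℂ] Euc n), V * (1 - Pk n N) = 1 - Pk n N ∧
      ∃ W : Submodule ℂ (Euc n), G' ≤ W ∧ W ≤ G ∧ V * Pk n M * star V = W.starProjection := by
  classical
  obtain ⟨W, hW1, hW2, hW3⟩ := exists_between G' G hG _ h1 h2
  let e : OrthonormalBasis (Fin (2 ^ n)) ℂ (Euc n) := EuclideanSpace.basisFun _ ℂ
  have he : ∀ s, e s = EuclideanSpace.single s 1 := fun s => EuclideanSpace.basisFun_apply _ _ s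
  let c := (stdOrthonormalBasis ℂ W).reindex
    ((finCongr hW3).trans ((finCongr (card_dvd n M hM).symm).trans (Fintype.equivFin _).symm))
  let f : Fin (2 ^ n) → Euc n := fun s =>
    if hs : 2 ^ M ∣ (s : ℕ) then (c ⟨s, hs⟩ : Euc n) else e s
  let S : Set (Fin (2 ^ n)) := {s | 2 ^ M ∣ (s : ℕ) ∨ ¬ 2 ^ N ∣ (s : ℕ)}
  have hdvd : ∀ s : Fin (2 ^ n), 2 ^ M ∣ (s : ℕ) → 2 ^ N ∣ (s : ℕ) := fun s hs =>
    (pow_dvd_pow 2 hNM).trans hs
  have horth : ∀ x ∈ W, ∀ s : Fin (2 ^ n), ¬ 2 ^ N ∣ (s : ℕ) → ⟪x, e s⟫_ℂ = 0 := by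
    intro x hx s hs
    have h := hGN x (hW2 hx)
    rw [← h, show ⟪Pk n N x, e s⟫_ℂ = ⟪x, Pk n N (e s)⟫_ℂ from ?_]
    · rw [he, Pk_single, if_neg hs, inner_zero_right]
    · have h' := (Pk_isStarProjection n N).isSelfAdjoint.star_eq
      rw [ContinuousLinearMap.star_eq_adjoint] at h'
      conv_lhs => rw [← h']
      exact ContinuousLinearMap.adjoint_inner_left _ _ _
  have hf : Orthonormal ℂ (S.domRestrict f) := by
    rw [orthonormal_iff_ite]
    rintro ⟨s, hs⟩ ⟨t, ht⟩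
    change ⟪f s, f t⟫_ℂ = if (⟨s, hs⟩ : S) = ⟨t, ht⟩ then 1 else 0
    simp only [Subtype.mk.injEq]
    by_cases h3 : 2 ^ M ∣ (s : ℕ) <;> by_cases h4 : 2 ^ M ∣ (t : ℕ)
    · rw [show f s = c ⟨s, h3⟩ from dif_pos h3, show f t = c ⟨t, h4⟩ from dif_pos h4,
        ← Submodule.coe_inner, orthonormal_iff_ite.1 c.orthonormal]
      simp only [Subtype.mk.injEq]
    · rw [show f s = c ⟨s, h3⟩ from dif_pos h3, show f t = e t from dif_neg h4,
        horth _ (c _).2 t (ht.resolve_left h4), if_neg (fun h : s = t => h4 (h ▸ h3))]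
    · rw [show f s = e s from dif_neg h3, show f t = c ⟨t, h4⟩ from dif_pos h4, ← inner_conj_symm,
        horth _ (c _).2 s (hs.resolve_left h3), map_zero, if_neg (fun h : s = t => h3 (h ▸ h4))]
    · rw [show f s = e s from dif_neg h3, show f t = e t from dif_neg h4,
        orthonormal_iff_ite.1 e.orthonormal]
  obtain ⟨b, hb⟩ := hf.exists_orthonormalBasis_extension_of_card_eq (by simp)
  let U : Euc n ≃ₗᵢ[ℂ] Euc n := e.equiv b (Equiv.refl _)
  let V : Euc n →L[ℂ] Euc n := (U : Euc n →L[ℂ] Euc n)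
  have hVe : ∀ s, V (e s) = b s := fun s => by
    change U (e s) = b s
    rw [OrthonormalBasis.equiv_apply_basis, Equiv.refl_apply]
  have hV : V ∈ unitary (Euc n →L[ℂ] Euc n) := by
    rw [Unitary.mem_iff]
    have h1 : star V = (U.symm : Euc n →L[ℂ] Euc n) := LinearIsometryEquiv.star_eq_symm U
    rw [h1]
    constructor <;> ext x <;> simp [V]
  refine ⟨V, hV, ?_, W, hW1, hW2, ?_⟩
  · apply ContinuousLinearMap.coe_injective
    refine e.toBasis.ext fun s => ?_
    simp only [OrthonormalBasis.coe_toBasis, ContinuousLinearMap.coe_coe, mul_apply_eq_comp]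
    by_cases hs : 2 ^ N ∣ (s : ℕ)
    · have h0 : (1 - Pk n N) (e s) = 0 := by
        rw [sub_apply, one_apply_eq_self, he, Pk_single, if_pos hs, sub_self]
      rw [h0, map_zero]
    · have h0 : (1 - Pk n N) (e s) = e s := by
        rw [sub_apply, one_apply_eq_self, he, Pk_single, if_neg hs, sub_zero]
      rw [h0, hVe, hb s (Or.inr hs)]
      exact dif_neg fun h => hs (hdvd s h)
  · suffices h : V * Pk n M = W.starProjection * V by
      rw [h, mul_assoc, Unitary.mul_star_self_of_mem hV, mul_one]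
    apply ContinuousLinearMap.coe_injective
    refine e.toBasis.ext fun s => ?_
    simp only [OrthonormalBasis.coe_toBasis, ContinuousLinearMap.coe_coe, mul_apply_eq_comp]
    rw [hVe, he, Pk_single]
    have hbs : ∀ t (ht : 2 ^ M ∣ (t : Fin (2 ^ n)).1), b t = c ⟨t, ht⟩ := fun t ht => by
      rw [hb t (Or.inl ht)]
      exact dif_pos ht
    by_cases hs : 2 ^ M ∣ (s : ℕ)
    · rw [if_pos hs, ← he, hVe, eq_comm, Submodule.starProjection_eq_self_iff, hbs s hs]
      exact (c _).2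
    · rw [if_neg hs, map_zero, eq_comm, Submodule.starProjection_apply_eq_zero_iff,
        Submodule.mem_orthogonal]
      intro x hx
      have : x = ∑ t, (c.repr ⟨x, hx⟩ t) • (c t : Euc n) := by
        have := congrArg (fun w : W => (w : Euc n)) (c.sum_repr ⟨x, hx⟩)
        simpa using this.symm
      rw [this, sum_inner]
      refine Finset.sum_eq_zero fun t _ => ?_
      rw [inner_smul_left, ← hbs t.1 t.2, orthonormal_iff_ite.1 b.orthonormal,
        if_neg ?_, mul_zero]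
      intro h
      exact hs (h ▸ t.2)

end Vale.Agent.P070.Fit
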