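import Vale.Agent.P070.Construction

/-! All irreducible representations of the constructed algebra are equivalent. -/

noncomputable section

open Filter Topology
open scoped InnerProductSpace ENNReal

namespace Vale.Agent.P070

namespace Setting

variable {A : Type} [CStarAlgebra A] (S : Setting A)

instance instClosedB : IsClosed (S.B : Set (S.HH →L[ℂ] S.HH)) :=
  StarSubalgebra.isClosed_topologicalClosure _

theorem π_mem (a : A) : S.π a ∈ S.B :=
  StarSubalgebra.le_topologicalClosure _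
    (StarAlgebra.subset_adjoin ℂ _ (Or.inl (Set.mem_range_self a)))

theorem v_mem_B (i : S.ι) : S.v i ∈ S.B :=
  StarSubalgebra.le_topologicalClosure _
    (StarAlgebra.subset_adjoin ℂ _ (Or.inr (Set.mem_range_self i)))

/-- The inclusion of A. -/
def incl : A →⋆ₐ[ℂ] S.B := StarAlgHom.codRestrict S.π S.B S.π_mem

/-- The connecting unitaries as elements. -/
def vB (i : S.ι) : S.B := ⟨S.v i, S.v_mem_B i⟩

@[simp] theorem incl_coe (a : A) : ((S.incl a : S.B) : S.HH →L[ℂ] S.HH) = S.π a := rfl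

@[simp] theorem vB_coe (i : S.ι) : ((S.vB i : S.B) : S.HH →L[ℂ] S.HH) = S.v i := rfl

universe u

variable {K : Type u} [NormedAddCommGroup K] [InnerProductSpace ℂ K] [CompleteSpace K]

theorem invariant_of_gens (σ : S.B →⋆ₐ[ℂ] (K →L[ℂ] K)) (V : Submodule ℂ K)
    (hV : IsClosed (V : Set K)) (hA : ∀ a, ∀ y ∈ V, σ (S.incl a) y ∈ V)
    (hv : ∀ i, ∀ y ∈ V, σ (S.vB i) y ∈ V) (hv' : ∀ i, ∀ y ∈ V, σ (star (S.vB i)) y ∈ V)
    (b : S.B) : ∀ y ∈ V, σ b y ∈ V := by
  let P : S.B → Prop := fun b => (∀ y ∈ V, σ b y ∈ V) ∧ (∀ y ∈ V, σ (star b) y ∈ V)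
  have hgen : ∀ x, x ∈ StarAlgebra.adjoin ℂ (Set.range S.π ∪ Set.range S.v) →
      ∃ hx : x ∈ S.B, P ⟨x, hx⟩ := by
    intro x hx
    induction hx using StarAlgebra.adjoin_induction with
    | mem x hx =>
      rcases hx with ⟨a, rfl⟩ | ⟨i, rfl⟩
      · refine ⟨S.π_mem a, hA a, ?_⟩
        have : star (⟨S.π a, S.π_mem a⟩ : S.B) = S.incl (star a) := Subtype.ext (map_star S.π a).symm
        rw [this]
        exact hA _
      · exact ⟨S.v_mem_B i, hv i, hv' i⟩
    | algebraMap r =>
      refine ⟨algebraMap_mem _ r, ?_, ?_⟩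
      · intro y hy
        change σ (algebraMap ℂ S.B r) y ∈ V
        rw [AlgHomClass.commutes, Algebra.algebraMap_eq_smul_one, smul_apply, one_apply_eq_self]
        exact V.smul_mem r hy
      · intro y hy
        change σ (star (algebraMap ℂ S.B r)) y ∈ V
        rw [← algebraMap_star_comm, AlgHomClass.commutes, Algebra.algebraMap_eq_smul_one,
          smul_apply, one_apply_eq_self]
        exact V.smul_mem _ hy
    | add x y _ _ hx hy =>
      obtain ⟨hx, h1, h1'⟩ := hx
      obtain ⟨hy, h2, h2'⟩ := hy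
      refine ⟨add_mem hx hy, fun z hz => ?_, fun z hz => ?_⟩
      · change σ (⟨x, hx⟩ + ⟨y, hy⟩ : S.B) z ∈ V
        rw [map_add, add_apply]
        exact V.add_mem (h1 z hz) (h2 z hz)
      · change σ (star (⟨x, hx⟩ + ⟨y, hy⟩ : S.B)) z ∈ V
        rw [star_add, map_add, add_apply]
        exact V.add_mem (h1' z hz) (h2' z hz)
    | mul x y _ _ hx hy =>
      obtain ⟨hx, h1, h1'⟩ := hx
      obtain ⟨hy, h2, h2'⟩ := hy
      refine ⟨mul_mem hx hy, fun z hz => ?_, fun z hz => ?_⟩
      · change σ (⟨x, hx⟩ * ⟨y, hy⟩ : S.B) z ∈ V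
        rw [map_mul, mul_apply_eq_comp]
        exact h1 _ (h2 z hz)
      · change σ (star (⟨x, hx⟩ * ⟨y, hy⟩ : S.B)) z ∈ V
        rw [star_mul, map_mul, mul_apply_eq_comp]
        exact h2' _ (h1' z hz)
    | star x _ hx =>
      obtain ⟨hx, h1, h1'⟩ := hx
      refine ⟨star_mem hx, h1', fun z hz => ?_⟩
      change σ (star (star (⟨x, hx⟩ : S.B))) z ∈ V
      rw [star_star]
      exact h1 z hz
  intro y hy
  have hb : (b : S.HH →L[ℂ] S.HH) ∈ closure
      (StarAlgebra.adjoin ℂ (Set.range S.π ∪ Set.range S.v) : Set (S.HH →L[ℂ] S.HH)) := by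
    rw [← StarSubalgebra.topologicalClosure_coe]
    exact b.2
  obtain ⟨x, hx, hlim⟩ := mem_closure_iff_seq_limit.1 hb
  choose hxB hxP using fun n => hgen (x n) (hx n)
  have h1 : Tendsto (fun n => (⟨x n, hxB n⟩ : S.B)) atTop (𝓝 b) := tendsto_subtype_rng.2 hlim
  have hc : Continuous σ :=
    AddMonoidHomClass.continuous_of_bound σ 1 fun x => by
      simpa using NonUnitalStarAlgHom.norm_apply_le σ x
  exact hV.mem_of_tendsto
    (((ContinuousLinearMap.apply ℂ K y).continuous.comp hc).tendsto b |>.comp h1)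
    (Eventually.of_forall fun n => (hxP n).1 y hy)

theorem exists_fixed (hsep : SepStatement.{u}) (T : Tower A)
    (hcomplete : ∀ π : A →⋆ₐ[ℂ] (E2 →L[ℂ] E2), Irred π → ∃ i, UEquiv (S.rep i) π)
    (σ : S.B →⋆ₐ[ℂ] (K →L[ℂ] K)) (hσ : Irred σ) :
    ∃ y, y ≠ 0 ∧ ∀ n, σ (S.incl (S.p n)) y = y := by
  by_contra hno
  push Not at hno
  have hz : ∀ y, (∀ n, σ (S.incl (S.p n)) y = y) → y = 0 := fun y hy => by
    by_contra h
    obtain ⟨n, hn⟩ := hno y h
    exact hn (hy n)
  have hlim : ∀ x, Tendsto (fun n => σ (S.incl (S.p n)) x) atTop (𝓝 0) := fun x => by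
    have := tendsto_proj (fun n => σ (S.incl (S.p n)))
      (fun n => ((S.p_proj n).map S.incl).map σ)
      (fun j k h => by rw [← map_mul, ← map_mul, S.p_mul j k h]) 0 (fun n => map_zero _)
      (fun y hy => by rw [hz y hy, smul_zero]) x
    simpa using this
  set τ := σ.comp S.incl with hτ
  have happ : ∀ a, τ a = σ (S.incl a) := fun a => rfl
  have hτi : Irred τ := by
    refine ⟨⟨1, ?_⟩, fun V hV hA => hσ.2 V hV ?_⟩
    · rw [map_one]
      intro h0
      obtain ⟨b, hb⟩ := hσ.1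
      exact hb (by rw [← mul_one (σ b), h0, mul_zero])
    · refine fun b => S.invariant_of_gens σ V hV hA ?_ ?_ b
      · intro i y hy
        refine hV.mem_of_tendsto (b := atTop) (f := fun m => σ (S.incl ((S.D i).U m * (1 - S.p m))) y) ?_
          (Eventually.of_forall fun m => hA _ y hy)
        have e : ∀ m, σ (S.incl ((S.D i).U m * (1 - S.p m))) y
            = σ (S.vB i) y - σ (S.vB i) (σ (S.incl (S.p m)) y) := fun m => by
          have : S.incl ((S.D i).U m * (1 - S.p m)) = S.vB i - S.vB i * S.incl (S.p m) :=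
            Subtype.ext (by
              simp only [incl_coe, vB_coe, AddSubgroupClass.coe_sub, MulMemClass.coe_mul]
              exact eq_sub_of_add_eq (S.v_split i m).symm)
          rw [this, map_sub, map_mul, sub_apply, mul_apply_eq_comp]
        simp only [e]
        simpa using (((σ (S.vB i)).continuous.tendsto 0).comp (hlim y)).const_sub (σ (S.vB i) y)
      · intro i y hy
        refine hV.mem_of_tendsto (b := atTop)
          (f := fun m => σ (S.incl ((1 - S.p m) * star ((S.D i).U m))) y) ?_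
          (Eventually.of_forall fun m => hA _ y hy)
        have e : ∀ m, σ (S.incl ((1 - S.p m) * star ((S.D i).U m))) y
            = σ (star (S.vB i)) y - σ (S.incl (S.p m)) (σ (star (S.vB i)) y) := fun m => by
          have : S.incl ((1 - S.p m) * star ((S.D i).U m))
              = star (S.vB i) - S.incl (S.p m) * star (S.vB i) :=
            Subtype.ext (by
              simp only [incl_coe, vB_coe, AddSubgroupClass.coe_sub, MulMemClass.coe_mul,
                StarMemClass.coe_star]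
              rw [← S.vstar_f]
              exact eq_sub_of_add_eq (S.vstar_split i m).symm)
          rw [this, map_sub, map_mul, sub_apply, mul_apply_eq_comp]
        simp only [e]
        simpa using (hlim (σ (star (S.vB i)) y)).const_sub (σ (star (S.vB i)) y)
  obtain ⟨π, hπ, hτπ⟩ := hsep A T K τ hτi
  obtain ⟨j, hj⟩ := hcomplete π hπ
  obtain ⟨U, hU⟩ := hj.trans hτπ.symm
  set y := U (S.D j).ξ with hy
  have hfy : ∀ n, σ (S.incl (S.f j n)) y = y := fun n => by
    rw [← happ, hy, ← hU]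
    congr 1
    exact (S.D j).fix n
  have hzero : σ (star (S.vB j)) y = 0 := hz _ fun n => by
    have h : S.incl (S.p n) * star (S.vB j) = star (S.vB j) * S.incl (S.f j n) :=
      Subtype.ext (by
        simp only [incl_coe, vB_coe, MulMemClass.coe_mul, StarMemClass.coe_star]
        exact (S.vstar_f j n).symm)
    rw [← mul_apply_eq_comp, ← map_mul, h, map_mul, mul_apply_eq_comp, hfy]
  have hone : S.vB j * star (S.vB j) = 1 :=
    Subtype.ext (Unitary.mul_star_self_of_mem (S.v_mem j))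
  have : y = 0 := by
    have h := congrArg (fun b => σ b y) hone
    simpa [hzero] using h.symm
  exact (S.D j).ξ_ne (U.injective (this.trans (map_zero U).symm))

theorem state_eq (σ : S.B →⋆ₐ[ℂ] (K →L[ℂ] K)) {y : K}
    (hy : ∀ n, σ (S.incl (S.p n)) y = y) (b : S.B) :
    ⟪y, σ b y⟫_ℂ = S.ev b * ⟪y, y⟫_ℂ := by
  let d : ℕ → S.B := fun n =>
    S.incl (S.p n) * b * S.incl (S.p n) - S.ev b • S.incl (S.p n)
  have hd : Tendsto (fun n => ‖d n‖) atTop (𝓝 0) :=
    (tendsto_zero_iff_norm_tendsto_zero.1 (S.excise b.2)).congr fun n => rfl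
  have h0 : Tendsto (fun n => ⟪y, σ (d n) y⟫_ℂ) atTop (𝓝 0) := by
    refine squeeze_zero_norm (fun n => ?_) ((hd.mul_const ‖y‖).const_mul ‖y‖ |>.trans (by simp))
    exact (norm_inner_le_norm _ _).trans (mul_le_mul_of_nonneg_left
      (((σ _).le_opNorm _).trans (mul_le_mul_of_nonneg_right
        (NonUnitalStarAlgHom.norm_apply_le σ _) (norm_nonneg _))) (norm_nonneg _))
  have h1 : ∀ n, ⟪y, σ (d n) y⟫_ℂ = ⟪y, σ b y⟫_ℂ - S.ev b * ⟪y, y⟫_ℂ := fun n => by
    simp only [d, map_sub, map_smul, map_mul, sub_apply, smul_apply, mul_apply_eq_comp, hy,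
      inner_sub_right, inner_smul_right]
    congr 1
    rw [← proj_inner (((S.p_proj n).map S.incl).map σ), hy]
  simp only [h1] at h0
  exact sub_eq_zero.1 (tendsto_nhds_unique tendsto_const_nhds h0)

theorem equiv_of_irred {L : Type*} [NormedAddCommGroup L] [InnerProductSpace ℂ L] [CompleteSpace L]
    {σ : S.B →⋆ₐ[ℂ] (K →L[ℂ] K)} {τ : S.B →⋆ₐ[ℂ] (L →L[ℂ] L)} (hσ : Irred σ) (hτ : Irred τ)
    {y : K} {z : L} (hy0 : y ≠ 0) (hz0 : z ≠ 0) (hy : ∀ n, σ (S.incl (S.p n)) y = y)
    (hz : ∀ n, τ (S.incl (S.p n)) z = z) : UEquiv σ τ := by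
  have hny : (‖y‖ : ℂ) ≠ 0 := by simpa using hy0
  have hnz : (‖z‖ : ℂ) ≠ 0 := by simpa using hz0
  refine equiv_of_state hσ hτ (x := (‖y‖ : ℂ)⁻¹ • y) (y := (‖z‖ : ℂ)⁻¹ • z)
    (smul_ne_zero (inv_ne_zero hny) hy0) (smul_ne_zero (inv_ne_zero hnz) hz0) fun b => ?_
  simp only [map_smul, inner_smul_left, inner_smul_right, S.state_eq σ hy, S.state_eq τ hz,
    inner_self_eq_norm_sq_to_K, map_inv₀, Complex.conj_ofReal]
  field_simp
  simp only [Complex.coe_algebraMap]
  field_simp

/-- The identity representation. -/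
def idRep : S.B →⋆ₐ[ℂ] (S.HH →L[ℂ] S.HH) := S.B.subtype

theorem idRep_irred : Irred S.idRep := by
  refine ⟨⟨1, ?_⟩, fun V hV hinv => ?_⟩
  · intro h
    rw [map_one] at h
    have h' : S.X S.o = 0 := congrArg (fun R : S.HH →L[ℂ] S.HH => R (S.X S.o)) h
    have := S.norm_X S.o
    rw [h', norm_zero] at this
    exact zero_ne_one this
  have hπV : ∀ a, ∀ x ∈ V, S.π a x ∈ V := fun a => hinv (S.incl a)
  have hvV : ∀ i, ∀ x ∈ V, S.v i x ∈ V := fun i => hinv (S.vB i)
  have hv'V : ∀ i, ∀ x ∈ V, star (S.v i) x ∈ V := fun i => hinv (star (S.vB i))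
  rcases eq_or_ne V ⊥ with h | h
  · exact Or.inl h
  right
  obtain ⟨x, hxV, hx0⟩ := Submodule.exists_mem_ne_zero_of_ne_bot h
  obtain ⟨j, hj⟩ : ∃ j, x j ≠ 0 := by
    by_contra hh
    push Not at hh
    exact hx0 (lp.ext (funext hh))
  obtain ⟨a, ha⟩ : ∃ a, ⟪(S.D j).ξ, S.rep j a (x j)⟫_ℂ ≠ 0 := by
    by_contra hh
    push Not at hh
    have hall : ∀ w, ⟪(S.D j).ξ, w⟫_ℂ = 0 := fun w =>
      ((S.irr j).denseRange hj).induction_on w (isClosed_eq (by fun_prop) (by fun_prop)) hh
    exact (S.D j).ξ_ne (inner_self_eq_zero.1 (hall _))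
  have hXj : S.X j ∈ V := by
    have h1 : ⟪S.X j, S.π a x⟫_ℂ • S.X j ∈ V :=
      hV.mem_of_tendsto (S.tendsto_f j (S.π a x))
        (Eventually.of_forall fun n => hπV _ _ (hπV a x hxV))
    have h2 : ⟪S.X j, S.π a x⟫_ℂ ≠ 0 := by
      rw [S.inner_X]
      exact ha
    exact (V.smul_mem_iff h2).1 h1
  have hback : ∃ c : ℂ, c ≠ 0 ∧ star (S.v j) (S.X j) = c • S.X S.o := by
    have hfix := S.fixed_eq S.o (star (S.v j) (S.X j)) fun n => by
      rw [S.f_o, ← mul_apply_eq_comp, ← S.vstar_f, mul_apply_eq_comp, S.f_X]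
    refine ⟨_, ?_, hfix⟩
    intro hc
    rw [hc, zero_smul] at hfix
    have := congrArg norm hfix
    rw [ContinuousLinearMap.norm_map_of_mem_unitary (Unitary.star_mem (S.v_mem j)), S.norm_X,
      norm_zero] at this
    exact one_ne_zero this
  have hXo : S.X S.o ∈ V := by
    obtain ⟨c, hc, he⟩ := hback
    exact (V.smul_mem_iff hc).1 (he ▸ hv'V j _ hXj)
  have hX : ∀ i, S.X i ∈ V := fun i => by
    have hfix := S.fixed_eq i (S.v i (S.X S.o)) fun n => by
      rw [← mul_apply_eq_comp, ← S.v_p, mul_apply_eq_comp, S.p_X]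
    have hne : ⟪S.X i, S.v i (S.X S.o)⟫_ℂ ≠ 0 := by
      intro hc
      rw [hc, zero_smul] at hfix
      have := congrArg norm hfix
      rw [ContinuousLinearMap.norm_map_of_mem_unitary (S.v_mem i), S.norm_X, norm_zero] at this
      exact one_ne_zero this
    exact (V.smul_mem_iff hne).1 (hfix ▸ hvV i _ hXo)
  have hsingle : ∀ i (w : E2), lp.single 2 i w ∈ V := fun i w => by
    refine ((S.irr i).denseRange (S.D i).ξ_ne).induction_on w ?_ fun a => ?_
    · refine hV.preimage ?_
      exact (lp.singleContinuousLinearMap ℂ (fun _ : S.ι => E2) 2 i).continuous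
    · rw [orbit_apply, ← S.π_single]
      exact hπV a _ (hX i)
  refine eq_top_iff.2 fun w _ => ?_
  refine hV.mem_of_tendsto (lp.hasSum_single (by simp) w) (Eventually.of_forall fun s => ?_)
  exact Submodule.sum_mem _ fun i _ => hsingle i _

theorem B_infinite : ¬ FiniteDimensional ℂ S.B := by
  intro hfin
  let Φ : S.B →ₗ[ℂ] E2 :=
    { toFun := fun b => ((b : S.HH →L[ℂ] S.HH) (S.X S.o) : S.HH) S.o
      map_add' := fun b c => by simp
      map_smul' := fun c b => by simp }
  have hsurj : Function.Surjective Φ := by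
    have hcl : IsClosed (LinearMap.range Φ : Set E2) := Submodule.closed_of_finiteDimensional _
    intro w
    refine ((S.irr S.o).denseRange (S.D S.o).ξ_ne).induction_on w hcl fun a => ⟨S.incl a, ?_⟩
    change (S.π a (S.X S.o) : S.HH) S.o = orbit (S.rep S.o) (S.D S.o).ξ a
    rw [X, π_single, lp.single_apply_self]
    rfl
  have : FiniteDimensional ℂ E2 := Module.Finite.of_surjective Φ hsurj
  have b : HilbertBasis ℕ ℂ E2 := HilbertBasis.ofRepr (LinearIsometryEquiv.refl ℂ E2)
  have := b.orthonormal.linearIndependent.finite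
  exact not_finite ℕ

theorem not_compact {H : Type*} [NormedAddCommGroup H] [InnerProductSpace ℂ H] [CompleteSpace H] :
    ¬ ∃ e : S.B →⋆ₙₐ[ℂ] (H →L[ℂ] H), Function.Injective e ∧
      ∀ R : H →L[ℂ] H, (∃ b, e b = R) ↔ IsCompactOperator R := by
  rintro ⟨e, hinj, hrange⟩
  have hone : ∀ R : H →L[ℂ] H, IsCompactOperator R → e 1 * R = R := fun R hR => by
    obtain ⟨b, rfl⟩ := (hrange R).2 hR
    rw [← map_mul, one_mul]
  have hid : e 1 = 1 := by
    ext x
    rcases eq_or_ne x 0 with rfl | hx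
    · simp
    have hscalar : IsCompactOperator (ContinuousLinearMap.id ℂ ℂ) :=
      (isCompactOperator_id_iff_finiteDimensional (𝕜 := ℂ) (E := ℂ)).2 inferInstance
    have hR : IsCompactOperator ((ContinuousLinearMap.toSpanSingleton ℂ x).comp (innerSL ℂ x)) :=
      ((hscalar.clm_comp (ContinuousLinearMap.toSpanSingleton ℂ x)).comp_clm (innerSL ℂ x))
    have h := congrArg (fun R : H →L[ℂ] H => R x) (hone _ hR)
    simp only [mul_apply_eq_comp, ContinuousLinearMap.comp_apply,
      ContinuousLinearMap.toSpanSingleton_apply, innerSL_apply_apply, map_smul] at h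
    simpa using smul_right_injective H (inner_self_ne_zero.2 hx) h
  have hc : IsCompactOperator (_root_.id : H → H) := by
    have := (hrange (1 : H →L[ℂ] H)).1 ⟨1, hid⟩
    exact this
  have : FiniteDimensional ℂ H := FiniteDimensional.of_isCompactOperator_id hc
  exact S.B_infinite (FiniteDimensional.of_injective
    ({ toFun := fun b => e b, map_add' := map_add e, map_smul' := map_smul e } : S.B →ₗ[ℂ] _) hinj)

end Setting

/-- A nonzero irreducible nonunital representation of a unital algebra is unital. -/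
theorem irred_map_one {B : Type*} [CStarAlgebra B] {H : Type*} [NormedAddCommGroup H]
    [InnerProductSpace ℂ H] [CompleteSpace H] (π : B →⋆ₙₐ[ℂ] (H →L[ℂ] H)) (hπ : Irred π) :
    π 1 = 1 := by
  let V : Submodule ℂ H := LinearMap.ker ((π 1 - 1 : H →L[ℂ] H) : H →ₗ[ℂ] H)
  have hV : ∀ y, y ∈ V ↔ π 1 y = y := fun y => by
    simp [V, sub_eq_zero]
  have hmem : ∀ b y, π b y ∈ V := fun b y => by
    rw [hV, ← mul_apply_eq_comp, ← map_mul, one_mul]
  rcases hπ.2 V (ContinuousLinearMap.isClosed_ker (π 1 - 1)) fun b y _ => hmem b y with h | h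
  · exfalso
    obtain ⟨b, hb⟩ := hπ.1
    apply hb
    ext y
    have := hmem b y
    rw [h] at this
    rw [(Submodule.mem_bot ℂ).1 this]
    rfl
  · ext y
    exact (hV y).1 (h ▸ Submodule.mem_top)

/-- The unital form of a nonunital irreducible representation. -/
def unitalize {B : Type*} [CStarAlgebra B] {H : Type*} [NormedAddCommGroup H]
    [InnerProductSpace ℂ H] [CompleteSpace H] (π : B →⋆ₙₐ[ℂ] (H →L[ℂ] H)) (h : π 1 = 1) :
    B →⋆ₐ[ℂ] (H →L[ℂ] H) where
  toFun := π
  map_one' := h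
  map_mul' := map_mul π
  map_zero' := map_zero π
  map_add' := map_add π
  commutes' r := by rw [Algebra.algebraMap_eq_smul_one, map_smul, h, Algebra.algebraMap_eq_smul_one]
  map_star' := map_star π

end Vale.Agent.P070
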