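import Vale.Agent.P070.Defs

/-! Elementary facts on the standard projections of a tower. -/

noncomputable section

namespace Vale.Agent.P070

theorem Pk_mul (n j k : ℕ) (h : j ≤ k) : Pk n j * Pk n k = Pk n k := by
  rw [Pk, Pk, ← map_mul, Matrix.diagonal_mul_diagonal]
  congr 1
  congr 1
  funext s
  by_cases hs : 2 ^ k ∣ (s : ℕ)
  · simp [hs, (pow_dvd_pow 2 h).trans hs]
  · simp [hs]

theorem Pk_isStarProjection (n k : ℕ) : IsStarProjection (Pk n k) where
  isIdempotentElem := Pk_mul n k k le_rfl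
  isSelfAdjoint := by
    refine IsSelfAdjoint.map ?_ _
    rw [IsSelfAdjoint, Matrix.star_eq_conjTranspose, Matrix.diagonal_conjTranspose]
    congr 1
    funext s
    simp only [Pi.star_apply]
    split_ifs <;> simp

theorem Pk_zero (n : ℕ) : Pk n 0 = 1 := by
  simp [Pk]

namespace Tower

variable {A : Type*} [CStarAlgebra A] (T : Tower A)

theorem p_proj (k : ℕ) : IsStarProjection (T.p k) := by
  rw [← T.p_spec k k le_rfl]
  exact (Pk_isStarProjection k k).map (T.φ k)

theorem p_mul {j k : ℕ} (h : j ≤ k) : T.p j * T.p k = T.p k := by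
  rw [← T.p_spec k k le_rfl, ← T.p_spec j k h, ← map_mul, Pk_mul k j k h]

theorem p_mul' {j k : ℕ} (h : j ≤ k) : T.p k * T.p j = T.p k := by
  have := congrArg star (T.p_mul h)
  rwa [star_mul, (T.p_proj j).isSelfAdjoint.star_eq, (T.p_proj k).isSelfAdjoint.star_eq] at this

theorem p_zero : T.p 0 = 1 := by
  rw [← T.p_spec 0 0 le_rfl, Pk_zero, map_one]

end Tower

end Vale.Agent.P070
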