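import Vale.Agent.P070.Irreps
import Vale.Agent.P070.TowerFacts

/-! Assembly from the module statements. -/

noncomputable section

namespace Vale.Agent.P070

universe u v w

/-- Irreducible representations on E2 up to unitary equivalence. -/
instance irrSetoid (A : Type) [CStarAlgebra A] :
    Setoid {π : A →⋆ₐ[ℂ] (E2 →L[ℂ] E2) // Irred π} where
  r x y := UEquiv x.1 y.1
  iseqv := ⟨fun _ => UEquiv.refl _, fun h => h.symm, fun h h' => h.trans h'⟩

/-- The index set of classes. -/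
abbrev IrrClass (A : Type) [CStarAlgebra A] : Type := Quotient (irrSetoid A)

theorem exists_setting (hexc : ExcisionStatement) {A : Type} [CStarAlgebra A] (T : Tower A)
    (π : A →⋆ₐ[ℂ] (E2 →L[ℂ] E2)) (hπ : Irred π) (D : Excised T.p π) (hU : ∀ k, D.U k = 1) :
    ∃ S : Setting A, ∀ τ : A →⋆ₐ[ℂ] (E2 →L[ℂ] E2), Irred τ → ∃ i, UEquiv (S.rep i) τ := by
  classical
  let o : IrrClass A := Quotient.mk _ (⟨π, hπ⟩ : {τ : A →⋆ₐ[ℂ] (E2 →L[ℂ] E2) // Irred τ})
  have ho : UEquiv π o.out.1 := UEquiv.symm (Quotient.mk_out (⟨π, hπ⟩ : {τ : A →⋆ₐ[ℂ] (E2 →L[ℂ] E2) // Irred τ}))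
  let D0 : Excised T.p o.out.1 := D.map _ ho.choose ho.choose_spec
  let E : ∀ i : IrrClass A, Excised T.p i.out.1 :=
    Function.update (fun i : IrrClass A => Classical.choice (hexc A T i.out.1 i.out.2)) o D0
  refine ⟨{ p := T.p, p_proj := T.p_proj, p_mul := fun j k h => T.p_mul h
            ι := IrrClass A, dec := Classical.decEq _, rep := fun i => i.out.1
            irr := fun i => i.out.2
            ineq := fun i j h => Quotient.out_equiv_out.1 h
            D := E, o := o, U_o := fun k => ?_ }, fun τ hτ => ?_⟩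
  · rw [show E o = D0 from Function.update_self _ _ _]
    exact hU k
  · exact ⟨Quotient.mk _ (⟨τ, hτ⟩ : {τ : A →⋆ₐ[ℂ] (E2 →L[ℂ] E2) // Irred τ}), Quotient.mk_out (⟨τ, hτ⟩ : {τ : A →⋆ₐ[ℂ] (E2 →L[ℂ] E2) // Irred τ})⟩

/-- The counterexample from the module statements. -/
theorem final (hbase : BaseStatement) (hexc : ExcisionStatement) (hu : SepStatement.{u})
    (hv : SepStatement.{v}) : Final.{u, v, w} := by
  obtain ⟨A, hA, T, π, hπ, D, hU⟩ := hbase
  obtain ⟨S, hS⟩ := exists_setting hexc T π hπ D hU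
  refine ⟨S.B, inferInstance, ?_, ⟨S.HH, inferInstance, inferInstance, inferInstance,
    S.idRep.toNonUnitalStarAlgHom, S.idRep_irred⟩, ?_, ?_⟩
  · by_contra h
    rw [not_nontrivial_iff_subsingleton] at h
    obtain ⟨b, hb⟩ := S.idRep_irred.1
    exact hb (by rw [Subsingleton.elim b 0, map_zero])
  · intro H _ _ _ K _ _ _ π σ hπ hσ
    let π' := unitalize π (irred_map_one π hπ)
    let σ' := unitalize σ (irred_map_one σ hσ)
    have hπ' : Irred π' := hπ
    have hσ' : Irred σ' := hσ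
    obtain ⟨y, hy0, hy⟩ := S.exists_fixed hu T hS π' hπ'
    obtain ⟨z, hz0, hz⟩ := S.exists_fixed hv T hS σ' hσ'
    exact S.equiv_of_irred hπ' hσ' hy0 hz0 hy hz
  · intro H _ _ _
    exact S.not_compact

end Vale.Agent.P070
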