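import Vale.Agent.P070.Defs

/-! Hahn-Banach majorisation at a vector state of an irreducible representation. -/

noncomputable section

open scoped InnerProductSpace ComplexStarModule ComplexOrder

namespace Vale.Agent.P070

section Schur

variable {A : Type*} {H : Type*} [NormedAddCommGroup H] [InnerProductSpace ℂ H] [CompleteSpace H]

/-- A self-adjoint operator commuting with an irreducible family is a real scalar. -/
theorem maj_schur {π : A → (H →L[ℂ] H)} (hπ : Irred π) (T : H →L[ℂ] H) (hT : IsSelfAdjoint T)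
    (hc : ∀ a, Commute (π a) T) : ∃ c : ℝ, T = (c : ℂ) • (1 : H →L[ℂ] H) := by
  have hH : Nontrivial H := by
    obtain ⟨a, ha⟩ := hπ.1
    by_contra h
    rw [not_nontrivial_iff_subsingleton] at h
    exact ha (Subsingleton.elim _ _)
  by_cases hs : (spectrum ℝ T).Subsingleton
  · obtain ⟨c, hc'⟩ : ∃ c : ℝ, spectrum ℝ T ⊆ {c} := by
      rcases hs.eq_empty_or_singleton with h | ⟨c, h⟩
      · exact ⟨0, by simp [h]⟩
      · exact ⟨c, h.subset⟩
    refine ⟨c, ?_⟩
    have h2 : cfc (id : ℝ → ℝ) T = cfc (fun _ => c) T := cfc_congr (fun x hx => hc' hx)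
    rw [cfc_id ℝ T, cfc_const c T] at h2
    rw [h2, Algebra.algebraMap_eq_smul_one, Complex.coe_smul]
  · exfalso
    rw [Set.not_subsingleton_iff] at hs
    obtain ⟨x, hx, y, hy, hxy⟩ := hs
    wlog hlt : x < y generalizing x y with W
    · exact W y hy x hx hxy.symm (lt_of_le_of_ne (not_lt.1 hlt) hxy.symm)
    set m : ℝ := (x + y) / 2 with hm
    set g : ℝ → ℝ := fun z => max (m - z) 0 with hg
    set h : ℝ → ℝ := fun z => max (z - m) 0 with hh
    have hgc : Continuous g := by fun_prop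
    have hhc : Continuous h := by fun_prop
    have hne : ∀ f : ℝ → ℝ, Continuous f → ∀ z ∈ spectrum ℝ T, f z ≠ 0 → cfc f T ≠ 0 := by
      intro f hf z hz hfz h0
      have h1 : f z ∈ spectrum ℝ (cfc f T) := by
        rw [cfc_map_spectrum f T hT hf.continuousOn]
        exact ⟨z, hz, rfl⟩
      rw [h0, spectrum.zero_eq] at h1
      exact hfz h1
    have hg0 : cfc g T ≠ 0 := hne g hgc x hx (by
      simp only [hg, hm]
      exact (lt_max_of_lt_left (by linarith)).ne')
    have hh0 : cfc h T ≠ 0 := hne h hhc y hy (by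
      simp only [hh, hm]
      exact (lt_max_of_lt_left (by linarith)).ne')
    have hprod : cfc h T * cfc g T = 0 := by
      rw [← cfc_mul h g T hhc.continuousOn hgc.continuousOn, ← cfc_zero ℝ T]
      refine cfc_congr (fun z _ => ?_)
      rcases le_total z m with hz | hz
      · simp [hh, max_eq_right (sub_nonpos.2 hz)]
      · simp [hg, max_eq_right (sub_nonpos.2 hz)]
    let W : H →L[ℂ] H := cfc h T
    let V : Submodule ℂ H := LinearMap.ker W.toLinearMap
    have hmem : ∀ z, z ∈ V ↔ cfc h T z = 0 := fun z => LinearMap.mem_ker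
    have hclosed : IsClosed (V : Set H) := (cfc h T).isClosed_ker
    have hinv : ∀ a, ∀ z ∈ V, π a z ∈ V := by
      intro a z hz
      rw [hmem] at hz ⊢
      have h1 : Commute (cfc h T) (π a) := (hc a).symm.cfc_real h
      have h2 := congrArg (fun S : H →L[ℂ] H => S z) h1.eq
      simpa [hz] using h2
    rcases hπ.2 V hclosed hinv with hV | hV
    · apply hg0
      ext z
      have h1 : cfc g T z ∈ V := by
        rw [hmem]
        simpa using congrArg (fun S : H →L[ℂ] H => S z) hprod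
      rw [hV, Submodule.mem_bot] at h1
      simpa using h1
    · apply hh0
      ext z
      simpa using (hmem z).1 (hV ▸ Submodule.mem_top)

end Schur

section Radon

variable {A : Type*} [CStarAlgebra A] [PartialOrder A] [StarOrderedRing A]
  {H : Type*} [NormedAddCommGroup H] [InnerProductSpace ℂ H] [CompleteSpace H]

/-- A positive functional dominated by twice a vector state of an irreducible representation is
a multiple of it. -/
theorem maj_radon (π : A →⋆ₐ[ℂ] (H →L[ℂ] H)) (hπ : Irred π) (ξ : H) (hξ : ‖ξ‖ = 1)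
    (f : A →ₚ[ℂ] ℂ) (hf : ∀ x : A, (f (star x * x)).re ≤ 2 * ‖π x ξ‖ ^ 2) :
    ∃ c : ℝ, ∀ y : A, f y = (c : ℂ) * ⟪ξ, π y ξ⟫_ℂ := by
  let e : A →ₗ[ℂ] H :=
    { toFun := fun x => π x ξ
      map_add' := fun x y => by simp
      map_smul' := fun c x => by simp }
  have he : ∀ x, e x = π x ξ := fun _ => rfl
  have hξ0 : ξ ≠ 0 := by
    intro h
    simp [h] at hξ
  have hdense : DenseRange e := by
    let V : Submodule ℂ H := (LinearMap.range e).topologicalClosure
    have hinv : ∀ a, ∀ z ∈ V, π a z ∈ V := by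
      intro a z hz
      have h1 : π a '' closure (LinearMap.range e : Set H) ⊆ closure (LinearMap.range e : Set H) :=
        (image_closure_subset_closure_image (π a).continuous).trans (closure_mono (by
          rintro _ ⟨_, ⟨w, rfl⟩, rfl⟩
          exact ⟨a * w, by simp [he]⟩))
      exact h1 ⟨z, hz, rfl⟩
    have hξV : ξ ∈ V := Submodule.le_topologicalClosure _ ⟨1, by simp [he]⟩
    rcases hπ.2 V (Submodule.isClosed_topologicalClosure _) hinv with hV | hV
    · rw [hV, Submodule.mem_bot] at hξV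
      exact absurd hξV hξ0
    · intro z
      have hz : z ∈ V := hV ▸ Submodule.mem_top
      exact hz
  have hcs : ∀ x y, ‖f (star x * y)‖ ≤ (4 * ‖π x ξ‖) * ‖π y ξ‖ := by
    intro x y
    have hb : ∀ z, ‖f.toPreGNS z‖ ^ 2 ≤ 2 * ‖π z ξ‖ ^ 2 := by
      intro z
      have h1 := congrArg Complex.re (f.preGNS_norm_sq (f.toPreGNS z))
      simp only [PositiveLinearMap.ofPreGNS_toPreGNS, ← Complex.ofReal_pow,
        Complex.ofReal_re] at h1
      rw [h1]
      exact hf z
    have h1 : ‖f (star x * y)‖ ≤ ‖f.toPreGNS x‖ * ‖f.toPreGNS y‖ := by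
      have h := norm_inner_le_norm (𝕜 := ℂ) (f.toPreGNS x) (f.toPreGNS y)
      rwa [f.preGNS_inner_def] at h
    have hb' : ∀ z, ‖f.toPreGNS z‖ ≤ 2 * ‖π z ξ‖ := fun z => by
      nlinarith [hb z, norm_nonneg (π z ξ), norm_nonneg (f.toPreGNS z)]
    have h2 := mul_le_mul (hb' x) (hb' y) (norm_nonneg _) (by positivity)
    linarith
  have hext : ∀ x : A, ∃ v : H, ‖v‖ ≤ 4 * ‖π x ξ‖ ∧ ∀ y, ⟪v, π y ξ⟫_ℂ = f (star x * y) := by
    intro x
    let l : A →ₗ[ℂ] ℂ :=
      { toFun := fun y => f (star x * y)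
        map_add' := fun y z => by simp [mul_add]
        map_smul' := fun c y => by simp }
    have hl : ∀ y, ‖l y‖ ≤ (4 * ‖π x ξ‖) * ‖e y‖ := fun y => hcs x y
    refine ⟨(InnerProductSpace.toDual ℂ H).symm (l.extendOfNorm e), ?_, fun y => ?_⟩
    · rw [LinearIsometryEquiv.norm_map]
      exact LinearMap.opNorm_extendOfNorm_le hdense (by positivity) hl
    · rw [InnerProductSpace.toDual_symm_apply, ← he]
      exact LinearMap.extendOfNorm_eq hdense ⟨_, hl⟩ y
  choose v hv hvi using hext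
  have huniq : ∀ z w : H, (∀ y, ⟪z, π y ξ⟫_ℂ = ⟪w, π y ξ⟫_ℂ) → z = w := by
    intro z w h
    apply ext_inner_right ℂ
    intro u
    exact congrFun (hdense.equalizer (continuous_const.inner continuous_id)
      (continuous_const.inner continuous_id) (funext h)) u
  let V : A →ₗ[ℂ] H :=
    { toFun := v
      map_add' := fun x x' => huniq _ _ fun y => by
        rw [inner_add_left, hvi, hvi, hvi, star_add, add_mul, map_add]
      map_smul' := fun c x => huniq _ _ fun y => by
        simp [hvi, star_smul, mul_comm] }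
  have hV : ∀ x, ‖V x‖ ≤ 4 * ‖e x‖ := hv
  let T : H →L[ℂ] H := V.extendOfNorm e
  have hTe : ∀ x, T (π x ξ) = v x := fun x => LinearMap.extendOfNorm_eq hdense ⟨4, hV⟩ x
  have hcomm : ∀ a, Commute (π a) T := by
    intro a
    apply DFunLike.coe_injective
    refine hdense.equalizer (ContinuousLinearMap.continuous _) (ContinuousLinearMap.continuous _)
      (funext fun x => ?_)
    show π a (T (π x ξ)) = T (π a (π x ξ))
    rw [hTe]
    have h2 : π a (π x ξ) = π (a * x) ξ := by simp
    rw [h2, hTe]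
    refine huniq _ _ fun y => ?_
    rw [hvi, ← ContinuousLinearMap.adjoint_inner_right, ← ContinuousLinearMap.star_eq_adjoint,
      ← map_star]
    have h3 : π (star a) (π y ξ) = π (star a * y) ξ := by simp
    rw [h3, hvi, star_mul, mul_assoc]
  have hsa : IsSelfAdjoint T := by
    rw [ContinuousLinearMap.isSelfAdjoint_iff_isSymmetric]
    intro z w
    refine congrFun (DenseRange.equalizer hdense (f := e) (g := fun z => ⟪T z, w⟫_ℂ)
      (h := fun z => ⟪z, T w⟫_ℂ) (by fun_prop) (by fun_prop) (funext fun x => ?_)) z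
    refine congrFun (DenseRange.equalizer hdense (f := e) (g := fun w => ⟪T (e x), w⟫_ℂ)
      (h := fun w => ⟪e x, T w⟫_ℂ) (by fun_prop) (by fun_prop) (funext fun y => ?_)) w
    simp only [Function.comp_apply, he, hTe, hvi]
    rw [← inner_conj_symm, hvi, starRingEnd_apply, ← map_star f, star_mul, star_star]
  obtain ⟨c, hc⟩ := maj_schur hπ T hsa hcomm
  refine ⟨c, fun y => ?_⟩
  have h1 := hvi 1 y
  rw [← hTe, hc] at h1
  simpa [inner_smul_left] using h1.symm

end Radon

/-- Majorisation. -/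
theorem maj : MajStatement := by
  intro A _ H _ _ _ π hπ a ha ξ hξ δ hδ
  let _ : PartialOrder A := CStarAlgebra.spectralOrder A
  have _ : StarOrderedRing A := CStarAlgebra.spectralOrderedRing A
  let ψ : A →ₗ[ℝ] ℝ :=
    { toFun := fun x => (⟪ξ, π x ξ⟫_ℂ).re
      map_add' := fun x y => by simp
      map_smul' := fun r x => by
        rw [← Complex.coe_smul, map_smul]
        simp }
  have hψ : ∀ x, ψ x = (⟪ξ, π x ξ⟫_ℂ).re := fun _ => rfl
  have hψss : ∀ x, ψ (star x * x) = ‖π x ξ‖ ^ 2 := by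
    intro x
    rw [hψ, map_mul, map_star, ContinuousLinearMap.star_eq_adjoint, ContinuousLinearMap.mul_def,
      ContinuousLinearMap.comp_apply, ContinuousLinearMap.adjoint_inner_right,
      inner_self_eq_norm_sq_to_K]
    simp [← Complex.ofReal_pow]
  have hψpos : ∀ x, 0 ≤ x → 0 ≤ ψ x := by
    intro x hx
    obtain ⟨c, rfl⟩ := CStarAlgebra.nonneg_iff_eq_star_mul_self.1 hx
    rw [hψss]
    positivity
  have hψmono : ∀ x y, x ≤ y → ψ x ≤ ψ y := by
    intro x y hxy
    have h := hψpos _ (sub_nonneg.2 hxy)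
    rw [map_sub] at h
    linarith
  have hψ1 : ψ 1 = 1 := by
    have h := hψss 1
    simpa [hξ] using h
  let S : selfAdjoint A → Set ℝ := fun x =>
    {r | ∃ t : ℝ, ∃ b : A, 0 ≤ b ∧ (x : A) ≤ t • (1 : A) + b ∧ r = t + 2 * ψ b}
  have hSne : ∀ x, (S x).Nonempty := fun x =>
    ⟨_, ‖(x : A)‖, 0, le_rfl, by
      rw [add_zero, ← Algebra.algebraMap_eq_smul_one]
      exact IsSelfAdjoint.le_algebraMap_norm_self x.2, rfl⟩
  have hSlb : ∀ x, ∀ r ∈ S x, ψ (x : A) ≤ r := by
    rintro x r ⟨t, b, hb, hxb, rfl⟩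
    have h1 := hψmono _ _ hxb
    rw [map_add, map_smul, hψ1, smul_eq_mul, mul_one] at h1
    linarith [hψpos b hb]
  have hSbdd : ∀ x, BddBelow (S x) := fun x => ⟨_, hSlb x⟩
  let q : selfAdjoint A → ℝ := fun x => sInf (S x)
  have hq : ∀ (x : selfAdjoint A) (t : ℝ) (b : A), 0 ≤ b → (x : A) ≤ t • (1 : A) + b →
      q x ≤ t + 2 * ψ b := fun x t b hb hxb => csInf_le (hSbdd x) ⟨t, b, hb, hxb, rfl⟩
  have hqψ : ∀ x : selfAdjoint A, ψ (x : A) ≤ q x := fun x => le_csInf (hSne x) (hSlb x)
  have hqlt : ∀ x r, q x < r → ∃ t : ℝ, ∃ b : A, 0 ≤ b ∧ (x : A) ≤ t • (1 : A) + b ∧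
      t + 2 * ψ b < r := by
    intro x r hr
    obtain ⟨_, ⟨t, b, hb, hxb, rfl⟩, hlt⟩ := exists_lt_of_csInf_lt (hSne x) hr
    exact ⟨t, b, hb, hxb, hlt⟩
  have hqadd : ∀ x y, q (x + y) ≤ q x + q y := by
    intro x y
    refine le_of_forall_pos_le_add fun ε hε => ?_
    obtain ⟨t, b, hb, hxb, h1⟩ := hqlt x (q x + ε / 2) (by linarith)
    obtain ⟨t', b', hb', hyb, h2⟩ := hqlt y (q y + ε / 2) (by linarith)
    have h3 := hq (x + y) (t + t') (b + b') (add_nonneg hb hb') (by
      rw [add_smul, add_add_add_comm]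
      exact add_le_add hxb hyb)
    rw [map_add] at h3
    linarith
  have hqle : ∀ c : ℝ, 0 < c → ∀ x, q (c • x) ≤ c * q x := by
    intro c hc x
    refine le_of_forall_pos_le_add fun ε hε => ?_
    obtain ⟨t, b, hb, hxb, h1⟩ := hqlt x (q x + ε / c) (by
      have : 0 < ε / c := div_pos hε hc
      linarith)
    have h3 := hq (c • x) (c * t) (c • b) (smul_nonneg hc.le hb) (by
      rw [selfAdjoint.val_smul, mul_smul, ← smul_add]
      exact smul_le_smul_of_nonneg_left hxb hc.le)
    rw [map_smul, smul_eq_mul] at h3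
    have h4 := mul_lt_mul_of_pos_left h1 hc
    rw [mul_add c (q x), mul_div_cancel₀ ε hc.ne'] at h4
    linarith
  have hqhom : ∀ c : ℝ, 0 < c → ∀ x, q (c • x) = c * q x := by
    intro c hc x
    refine le_antisymm (hqle c hc x) ?_
    have h := hqle c⁻¹ (inv_pos.2 hc) (c • x)
    rw [inv_smul_smul₀ hc.ne'] at h
    have h2 := mul_le_mul_of_nonneg_left h hc.le
    rwa [← mul_assoc, mul_inv_cancel₀ hc.ne', one_mul] at h2
  have hq0 : q 0 = 0 := le_antisymm (by simpa using hq 0 0 0 le_rfl (by simp))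
    (by simpa using hqψ 0)
  let a' : selfAdjoint A := ⟨a, ha⟩
  have hneg : 0 ≤ q a' + q (-a') := by
    have h := hqadd a' (-a')
    rwa [add_neg_cancel, hq0] at h
  let fP : selfAdjoint A →ₗ.[ℝ] ℝ := LinearPMap.mkSpanSingleton' a' (q a') (by
    intro c hc
    rcases eq_or_ne c 0 with rfl | h
    · simp
    · have h2 : a' = 0 := by simpa [h] using hc
      simp [h2, hq0])
  obtain ⟨s, hsa, hsle⟩ := exists_extension_of_le_sublinear fP q hqhom hqadd (by
    rintro ⟨z, hz⟩
    obtain ⟨c, rfl⟩ := Submodule.mem_span_singleton.1 hz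
    simp only [fP, LinearPMap.mkSpanSingleton'_apply, RingHom.id_apply, smul_eq_mul]
    rcases lt_trichotomy c 0 with hc | rfl | hc
    · have h := hqhom (-c) (neg_pos.2 hc) (-a')
      rw [smul_neg, neg_smul, neg_neg] at h
      rw [h]
      nlinarith [mul_nonneg (neg_nonneg.2 hc.le) hneg]
    · simp [hq0]
    · rw [hqhom c hc])
  have hsa' : s a' = q a' := by
    have h := hsa ⟨a', Submodule.mem_span_singleton_self _⟩
    rw [h]
    exact LinearPMap.mkSpanSingleton'_apply_self _ _ _ _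
  have hspos : ∀ x : selfAdjoint A, 0 ≤ (x : A) → 0 ≤ s x := by
    intro x hx
    have h := (hsle (-x)).trans (hq (-x) 0 0 le_rfl (by simpa using hx))
    simpa using h
  have hsub : ∀ x : selfAdjoint A, 0 ≤ (x : A) → s x ≤ 2 * ψ (x : A) := by
    intro x hx
    simpa using (hsle x).trans (hq x 0 x hx (by simp))
  have hs1 : s 1 = 1 := by
    refine le_antisymm ?_ ?_
    · simpa using (hsle 1).trans (hq 1 1 0 le_rfl (by simp))
    · have h := (hsle (-1)).trans (hq (-1) (-1) 0 le_rfl (by simp))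
      simpa using h
  let sC : A →ₗ[ℂ] ℂ :=
    { toFun := fun x => (s (ℜ x) : ℂ) + Complex.I * (s (ℑ x) : ℂ)
      map_add' := fun x y => by
        simp only [map_add]
        push_cast
        ring
      map_smul' := fun c x => by
        simp only [realPart_smul, imaginaryPart_smul, map_sub, map_add, map_smul, RingHom.id_apply,
          smul_eq_mul, Complex.ofReal_sub, Complex.ofReal_add, Complex.ofReal_mul]
        conv_rhs => rw [← Complex.re_add_im c]
        linear_combination (-((c.im : ℂ) * (s (ℑ x) : ℂ))) * Complex.I_sq }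
  have hsC : ∀ x : A, ∀ hx : IsSelfAdjoint x, sC x = (s ⟨x, hx⟩ : ℂ) := by
    intro x hx
    have h1 : (ℜ x) = ⟨x, hx⟩ := Subtype.ext hx.coe_realPart
    change (s (ℜ x) : ℂ) + Complex.I * (s (ℑ x) : ℂ) = _
    rw [h1, hx.imaginaryPart]
    simp
  let f : A →ₚ[ℂ] ℂ := PositiveLinearMap.mk₀ sC fun x hx => by
    rw [hsC x (IsSelfAdjoint.of_nonneg hx)]
    exact Complex.zero_le_real.2 (hspos _ hx)
  have hf : ∀ x, f x = sC x := fun _ => rfl
  obtain ⟨c, hc⟩ := maj_radon π hπ ξ hξ f (fun x => by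
    rw [hf, hsC _ (IsSelfAdjoint.star_mul_self x), Complex.ofReal_re, ← hψss]
    exact hsub _ (star_mul_self_nonneg x))
  have hc1 : c = 1 := by
    have h := congrArg Complex.re (hc 1)
    have hone : (⟨1, IsSelfAdjoint.one A⟩ : selfAdjoint A) = 1 := rfl
    rw [hf, hsC 1 (IsSelfAdjoint.one A), hone, hs1, Complex.re_ofReal_mul, ← hψ, hψ1] at h
    simpa using h.symm
  have hqa : q a' = ψ a := by
    have h := congrArg Complex.re (hc a)
    rw [hf, hsC a ha, hc1] at h
    rw [← hsa', hψ]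
    simpa using h
  obtain ⟨t, b, hb, hxb, hlt⟩ := hqlt a' (ψ a + δ) (by linarith)
  have hψab := hψmono _ _ hxb
  rw [map_add, map_smul, hψ1, smul_eq_mul, mul_one] at hψab
  obtain ⟨d, hd⟩ := CStarAlgebra.nonneg_iff_eq_star_mul_self.1 (sub_nonneg.2 hxb)
  obtain ⟨c', rfl⟩ := CStarAlgebra.nonneg_iff_eq_star_mul_self.1 hb
  refine ⟨c', d, t, ?_, ?_, ?_⟩
  · rw [← hψ]
    linarith [hψpos _ hb]
  · rw [← hψss]
    change ψ a ≤ _ at hψab
    linarith
  · rw [← hd, Complex.coe_smul]

end Vale.Agent.P070
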