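import Vale.Agent.P070.Defs

/-! Named properties used in the hand-in statement. -/

noncomputable section

namespace Vale.Agent.P070

universe u v w

/-- A representation of B: a star-homomorphism into the bounded operators of a Hilbert space. -/
abbrev Rep (B : Type) [CStarAlgebra B] (H : Type u) [NormedAddCommGroup H]
    [InnerProductSpace ℂ H] [CompleteSpace H] : Type u :=
  B →⋆ₙₐ[ℂ] (H →L[ℂ] H)

/-- B has an irreducible representation. -/
def HasIrrep (B : Type) [CStarAlgebra B] : Prop :=
  ∃ (H : Type) (_ : NormedAddCommGroup H) (_ : InnerProductSpace ℂ H) (_ : CompleteSpace H)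
    (π : Rep B H), Irred π

/-- Any two irreducible representations of B are unitarily equivalent. -/
def IrrepsEquivalent.{uu, vv} (B : Type) [CStarAlgebra B] : Prop :=
  ∀ (H : Type uu) [NormedAddCommGroup H] [InnerProductSpace ℂ H] [CompleteSpace H]
    (K : Type vv) [NormedAddCommGroup K] [InnerProductSpace ℂ K] [CompleteSpace K]
    (π : Rep B H) (σ : Rep B K), Irred π → Irred σ → UEquiv π σ

/-- B is isomorphic to the compact operators of some Hilbert space in the given universe. -/
def IsoCompacts.{ww} (B : Type) [CStarAlgebra B] : Prop :=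
  ∃ (H : Type ww) (_ : NormedAddCommGroup H) (_ : InnerProductSpace ℂ H) (_ : CompleteSpace H)
    (e : Rep B H), Function.Injective e ∧
      ∀ S : H →L[ℂ] H, (∃ b, e b = S) ↔ IsCompactOperator S

end Vale.Agent.P070
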