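import Vale.Agent.P070.Defs

/-! Irreducible representations of a tower algebra live on separable infinite-dimensional Hilbert
spaces. -/

noncomputable section

open Filter Topology TopologicalSpace
open scoped InnerProductSpace

namespace Vale.Agent.P070

universe uu

namespace Sep

variable {A : Type} [CStarAlgebra A] (T : Tower A)

include T in
theorem separable : SeparableSpace A := by
  refine isSeparable_univ_iff.1 ?_
  rw [← T.dense.closure_eq]
  refine (IsSeparable.iUnion fun n => ?_).closure
  have : IsSeparable (Set.univ : Set (Euc n →L[ℂ] Euc n)) := IsSeparable.of_separableSpace _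
  rw [← Set.image_univ]
  exact this.image ((T.φ n).toAlgHom.toLinearMap.continuous_of_finiteDimensional)

variable {K : Type uu} [NormedAddCommGroup K] [InnerProductSpace ℂ K] [CompleteSpace K]
  {σ : A →⋆ₐ[ℂ] (K →L[ℂ] K)}

omit T in
theorem nontrivial (h : Irred σ) : Nontrivial K := by
  obtain ⟨a, ha⟩ := h.1
  by_contra hn
  rw [not_nontrivial_iff_subsingleton] at hn
  exact ha (ContinuousLinearMap.ext fun x => Subsingleton.elim _ _)

include T in
theorem separable_K (h : Irred σ) : SeparableSpace K := by
  have := separable T
  have := nontrivial h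
  obtain ⟨x, hx⟩ := exists_ne (0 : K)
  let F : A →ₗ[ℂ] K :=
    { toFun := fun a => σ a x
      map_add' := fun a b => by simp
      map_smul' := fun c a => by simp }
  have hF : Continuous F := by
    refine AddMonoidHomClass.continuous_of_bound F ‖x‖ fun a => ?_
    rw [mul_comm]
    exact ((σ a).le_opNorm x).trans
      (mul_le_mul_of_nonneg_right (NonUnitalStarAlgHom.norm_apply_le σ a) (norm_nonneg x))
  have hinv : ∀ b, ∀ y ∈ (LinearMap.range F).topologicalClosure,
      σ b y ∈ (LinearMap.range F).topologicalClosure := by
    intro b y hy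
    have hmaps : Set.MapsTo (σ b) (LinearMap.range F) (LinearMap.range F) := by
      rintro _ ⟨a, rfl⟩
      exact ⟨b * a, by simp [F]⟩
    exact hmaps.closure (σ b).continuous hy
  have hdense : DenseRange F := by
    rcases h.2 (LinearMap.range F).topologicalClosure
      (Submodule.isClosed_topologicalClosure _) hinv with hbot | htop
    · have : x ∈ (LinearMap.range F).topologicalClosure :=
        Submodule.le_topologicalClosure _ ⟨1, by simp [F]⟩
      rw [hbot, Submodule.mem_bot] at this
      exact absurd this hx
    · rw [DenseRange, ← LinearMap.coe_range, Submodule.dense_iff_topologicalClosure_eq_top]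
      exact htop
  exact hdense.separableSpace hF

include T in
theorem infinite_dim (h : Irred σ) : ¬ FiniteDimensional ℂ K := by
  intro hfd
  have := nontrivial h
  set d := Module.finrank ℂ (K →L[ℂ] K)
  let g : Matrix (Fin (2 ^ d)) (Fin (2 ^ d)) ℂ →ₐ[ℂ] (K →L[ℂ] K) :=
    (σ.toAlgHom.comp (T.φ d).toAlgHom).comp
      (Matrix.toEuclideanCLM (n := Fin (2 ^ d)) (𝕜 := ℂ)).toAlgEquiv.toAlgHom
  have hg : Function.Injective g := RingHom.injective g.toRingHom
  have hle := LinearMap.finrank_le_finrank_of_injective (f := g.toLinearMap) hg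
  rw [Module.finrank_matrix, Fintype.card_fin, Module.finrank_self, mul_one] at hle
  have h2 : d < 2 ^ d := Nat.lt_two_pow_self
  nlinarith

include T in
theorem nonempty_iso (h : Irred σ) : Nonempty (K ≃ₗᵢ[ℂ] E2) := by
  have := separable_K T h
  obtain ⟨w, b, hb⟩ := exists_hilbertBasis ℂ K
  have : Countable w := by
    have hsep : ∀ i j : w, i ≠ j → 1 ≤ dist (b i) (b j) := by
      intro i j hij
      have := b.orthonormal
      have h2 : ‖b i - b j‖ ^ 2 = 2 := by
        rw [@norm_sub_sq ℂ, this.1 i, this.1 j, this.2 hij]
        simp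
        norm_num
      rw [dist_eq_norm]
      nlinarith [norm_nonneg (b i - b j)]
    refine Pairwise.countable_of_isOpen_disjoint (s := fun i => Metric.ball (b i) (1 / 2))
      (fun i j hij => Metric.ball_disjoint_ball ?_) (fun i => Metric.isOpen_ball)
      (fun i => ⟨b i, Metric.mem_ball_self (by norm_num)⟩)
    have := hsep i j hij
    linarith
  have : Infinite w := by
    by_contra hinf
    rw [not_infinite_iff_finite] at hinf
    have := Fintype.ofFinite w
    exact infinite_dim T h (Module.Finite.equiv b.toOrthonormalBasis.toBasis.equivFun.symm)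
  obtain ⟨e⟩ := nonempty_equiv_of_countable (α := ℕ) (β := w)
  refine ⟨(HilbertBasis.mk (b.orthonormal.comp e e.injective) ?_).repr⟩
  rw [Set.range_comp, e.surjective.range_eq, Set.image_univ, b.dense_span]

omit T in
theorem irred_conj (h : Irred σ) (U : K ≃ₗᵢ[ℂ] E2) :
    Irred ((U.conjStarAlgEquiv : (K →L[ℂ] K) →⋆ₐ[ℂ] (E2 →L[ℂ] E2)).comp σ) := by
  refine ⟨?_, fun V hV hinv => ?_⟩
  · obtain ⟨a, ha⟩ := h.1
    exact ⟨a, fun h0 => ha (U.conjStarAlgEquiv.injective (by simpa using h0))⟩
  · set W := V.comap U.toLinearEquiv.toLinearMap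
    have hW : IsClosed (W : Set K) := hV.preimage U.continuous
    rcases h.2 W hW (fun a x hx => by simpa [W] using hinv a (U x) hx) with hbot | htop
    · left
      rw [eq_bot_iff]
      intro y hy
      have : U.symm y ∈ W := by simpa [W] using hy
      rw [hbot, Submodule.mem_bot] at this
      simpa using congrArg U this
    · right
      rw [eq_top_iff]
      intro y _
      have : U.symm y ∈ W := htop ▸ Submodule.mem_top
      simpa [W] using this

end Sep

/-- Every irreducible representation of a tower algebra is equivalent to one on `E2`. -/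
theorem sep : SepStatement.{uu} := by
  intro A _ T K _ _ _ σ h
  obtain ⟨U⟩ := Sep.nonempty_iso T h
  exact ⟨_, Sep.irred_conj h U, U, fun a x => by simp⟩

end Vale.Agent.P070
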