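import Vale.Agent.P070.StepCore

/-! One excision stage with an exact dyadic rank. -/

noncomputable section

open scoped InnerProductSpace

namespace Vale.Agent.P070

theorem Pk_single (n k : ℕ) (s : Fin (2 ^ n)) :
    Pk n k (EuclideanSpace.basisFun (Fin (2 ^ n)) ℂ s) =
      if 2 ^ k ∣ (s : ℕ) then EuclideanSpace.basisFun (Fin (2 ^ n)) ℂ s else 0 := by
  ext j
  rw [Pk, EuclideanSpace.basisFun_apply]
  simp only [PiLp.single, Matrix.toEuclideanCLM_toLp, Matrix.mulVec_diagonal]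
  by_cases hj : j = s
  · subst hj
    split_ifs <;> simp
  · split_ifs <;> simp [hj]

theorem clm_ext_basis {n : ℕ} {S T : Euc n →L[ℂ] Euc n}
    (h : ∀ s, S (EuclideanSpace.basisFun (Fin (2 ^ n)) ℂ s) =
      T (EuclideanSpace.basisFun (Fin (2 ^ n)) ℂ s)) : S = T :=
  ContinuousLinearMap.coe_injective
    ((EuclideanSpace.basisFun (Fin (2 ^ n)) ℂ).toBasis.ext fun s => by simpa using h s)

theorem exists_subspace_between {E : Type*} [AddCommGroup E] [Module ℂ E] [FiniteDimensional ℂ E]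
    (U W : Submodule ℂ E) (hUW : U ≤ W) (k : ℕ) (h1 : Module.finrank ℂ U ≤ k)
    (h2 : k ≤ Module.finrank ℂ W) :
    ∃ X : Submodule ℂ E, U ≤ X ∧ X ≤ W ∧ Module.finrank ℂ X = k := by
  induction k, h1 using Nat.le_induction with
  | base => exact ⟨U, le_rfl, hUW, rfl⟩
  | succ k hk ih =>
    obtain ⟨X, hUX, hXW, hX⟩ := ih (by omega)
    have hlt : X < W := lt_of_le_of_ne hXW (by rintro rfl; omega)
    obtain ⟨x, hxW, hxX⟩ := SetLike.exists_of_lt hlt
    refine ⟨X ⊔ Submodule.span ℂ {x}, hUX.trans le_sup_left,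
      sup_le hXW ((Submodule.span_singleton_le_iff_mem _ _).2 hxW), ?_⟩
    rw [Submodule.finrank_sup_span_singleton hxX, hX]

theorem proj_apply_of_mem {n : ℕ} {G : Euc n →L[ℂ] Euc n} (hG : IsStarProjection G) {x : Euc n}
    (hx : x ∈ LinearMap.range (G : Euc n →ₗ[ℂ] Euc n)) : G x = x := by
  obtain ⟨w, rfl⟩ := hx
  exact congrArg (fun T : Euc n →L[ℂ] Euc n => T w) hG.isIdempotentElem.eq

/-- A standard projection conjugated into place between two projections under Pk n N. -/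
theorem mid_unitary {n N M : ℕ} (hNM : N < M) (hMn : M ≤ n) (G g : Euc n →L[ℂ] Euc n)
    (hG : IsStarProjection G) (hg : IsStarProjection g) (hgG : g * G = g)
    (hGN : G * Pk n N = G) (h1 : rk g ≤ 2 ^ (n - M)) (h2 : 2 ^ (n - M) ≤ rk G) :
    ∃ V ∈ unitary (Euc n →L[ℂ] Euc n), V * (1 - Pk n N) = 1 - Pk n N ∧
      G * (V * Pk n M * star V) = V * Pk n M * star V ∧ V * Pk n M * star V * g = g := by
  classical
  have hGg : G * g = g := by
    simpa [hG.isSelfAdjoint.star_eq, hg.isSelfAdjoint.star_eq] using congrArg star hgG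
  have hle : LinearMap.range (g : Euc n →ₗ[ℂ] Euc n) ≤
      LinearMap.range (G : Euc n →ₗ[ℂ] Euc n) := by
    rintro _ ⟨w, rfl⟩
    exact ⟨g w, congrArg (fun T : Euc n →L[ℂ] Euc n => T w) hGg⟩
  obtain ⟨X, hgX, hXG, hX⟩ := exists_subspace_between _ _ hle _ h1 h2
  set b := (stdOrthonormalBasis ℂ X).reindex (finCongr hX) with hb
  set e := EuclideanSpace.basisFun (Fin (2 ^ n)) ℂ with he
  have hPk : ∀ k s, Pk n k (e s) = if 2 ^ k ∣ (s : ℕ) then e s else 0 := Pk_single n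
  have hdiv : ∀ s : Fin (2 ^ n), (s : ℕ) / 2 ^ M < 2 ^ (n - M) := fun s =>
    (Nat.div_lt_iff_lt_mul (by positivity)).2 (by
      rw [← pow_add, Nat.sub_add_cancel hMn]; exact s.2)
  let v : Fin (2 ^ n) → Euc n := fun s =>
    if 2 ^ M ∣ (s : ℕ) then (b ⟨_, hdiv s⟩ : Euc n) else e s
  let S : Set (Fin (2 ^ n)) := {s | 2 ^ M ∣ (s : ℕ) ∨ ¬ 2 ^ N ∣ (s : ℕ)}
  have hbG : ∀ j, G (b j : Euc n) = b j := fun j => proj_apply_of_mem hG (hXG (b j).2)
  have hGe : ∀ s : Fin (2 ^ n), ¬ 2 ^ N ∣ (s : ℕ) → G (e s) = 0 := by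
    intro s hs
    rw [← hGN, mul_apply_eq_comp, hPk, if_neg hs, map_zero]
  have horth : ∀ j, ∀ s : Fin (2 ^ n), ¬ 2 ^ N ∣ (s : ℕ) → ⟪(b j : Euc n), e s⟫_ℂ = 0 := by
    intro j s hs
    conv_lhs => rw [← hbG j]
    rw [← ContinuousLinearMap.adjoint_inner_right, ← ContinuousLinearMap.star_eq_adjoint,
      hG.isSelfAdjoint.star_eq, hGe s hs, inner_zero_right]
  have hv : Orthonormal ℂ (S.domRestrict v) := by
    rw [orthonormal_iff_ite]
    rintro ⟨s, hs⟩ ⟨t, ht⟩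
    change ⟪v s, v t⟫_ℂ = _
    simp only [S, Set.mem_ofPred_eq] at hs ht
    simp only [v, Subtype.mk.injEq]
    by_cases hs1 : 2 ^ M ∣ (s : ℕ) <;> by_cases ht1 : 2 ^ M ∣ (t : ℕ) <;>
      simp only [hs1, ht1, if_true, if_false]
    · rw [← Submodule.coe_inner, orthonormal_iff_ite.1 b.orthonormal]
      refine if_congr ⟨fun h => ?_, fun h => by rw [h]⟩ rfl rfl
      rw [Fin.mk.injEq] at h
      apply Fin.ext
      rw [← Nat.div_mul_cancel hs1, h, Nat.div_mul_cancel ht1]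
    · rw [horth _ t (ht.resolve_left ht1), if_neg]
      exact fun h => ht1 (h ▸ hs1)
    · rw [← inner_conj_symm, horth _ s (hs.resolve_left hs1), map_zero, if_neg]
      exact fun h => hs1 (h ▸ ht1)
    · exact orthonormal_iff_ite.1 e.orthonormal s t
  obtain ⟨b', hb'⟩ := hv.exists_orthonormalBasis_extension_of_card_eq
    (ι := Fin (2 ^ n)) (by simp)
  let Ve : Euc n ≃ₗᵢ[ℂ] Euc n := e.equiv b' (Equiv.refl _)
  let V : unitary (Euc n →L[ℂ] Euc n) := Unitary.linearIsometryEquiv.symm Ve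
  have hVe : ∀ s, (V : Euc n →L[ℂ] Euc n) (e s) = b' s := fun s => by
    simp [V, Ve]
  have hV1 : ∀ s : Fin (2 ^ n), 2 ^ M ∣ (s : ℕ) →
      (V : Euc n →L[ℂ] Euc n) (e s) = b ⟨_, hdiv s⟩ := by
    intro s hs
    rw [hVe, hb' s (Or.inl hs)]
    exact if_pos hs
  have hV2 : ∀ s : Fin (2 ^ n), ¬ 2 ^ N ∣ (s : ℕ) → (V : Euc n →L[ℂ] Euc n) (e s) = e s := by
    intro s hs
    rw [hVe, hb' s (Or.inr hs)]
    exact if_neg fun h => hs ((pow_dvd_pow 2 hNM.le).trans h)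
  refine ⟨V, V.2, ?_, ?_, ?_⟩
  · refine clm_ext_basis fun s => ?_
    simp only [mul_apply_eq_comp, ← he, sub_apply, one_apply_eq_self, hPk]
    by_cases hs : 2 ^ N ∣ (s : ℕ)
    · simp [hs]
    · simp [hs, hV2 s hs]
  · have h : G * ((V : Euc n →L[ℂ] Euc n) * Pk n M) = (V : Euc n →L[ℂ] Euc n) * Pk n M := by
      refine clm_ext_basis fun s => ?_
      simp only [mul_apply_eq_comp, ← he, hPk]
      by_cases hs : 2 ^ M ∣ (s : ℕ)
      · simp only [hs, if_true, hV1 s hs, hbG]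
      · simp [hs]
    rw [← mul_assoc, h]
  · set f := (V : Euc n →L[ℂ] Euc n) * Pk n M * star (V : Euc n →L[ℂ] Euc n) with hf
    have hfix : (f : Euc n →ₗ[ℂ] Euc n).comp X.subtype = X.subtype := by
      refine b.toBasis.ext fun j => ?_
      let s : Fin (2 ^ n) := ⟨(j : ℕ) * 2 ^ M, by
        calc (j : ℕ) * 2 ^ M < 2 ^ (n - M) * 2 ^ M :=
              Nat.mul_lt_mul_of_pos_right j.2 (by positivity)
          _ = 2 ^ n := by rw [← pow_add, Nat.sub_add_cancel hMn]⟩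
      have hs : 2 ^ M ∣ (s : ℕ) := Dvd.intro_left _ rfl
      have hj : (⟨_, hdiv s⟩ : Fin (2 ^ (n - M))) = j :=
        Fin.ext (Nat.mul_div_cancel _ (by positivity))
      have hbj : (b j : Euc n) = (V : Euc n →L[ℂ] Euc n) (e s) := by rw [hV1 s hs, hj]
      simp only [OrthonormalBasis.coe_toBasis, LinearMap.coe_comp, Submodule.coe_subtype,
        Function.comp_apply, ContinuousLinearMap.coe_coe, hbj, hf, mul_apply_eq_comp]
      rw [show star (V : Euc n →L[ℂ] Euc n) ((V : Euc n →L[ℂ] Euc n) (e s)) = e s from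
        congrArg (fun T : Euc n →L[ℂ] Euc n => T (e s)) (Unitary.coe_star_mul_self V),
        hPk, if_pos hs]
    refine clm_ext_basis fun s => ?_
    exact LinearMap.congr_fun hfix ⟨g (e s), hgX ⟨e s, rfl⟩⟩

variable {A : Type} [CStarAlgebra A] {H : Type} [NormedAddCommGroup H] [InnerProductSpace ℂ H]
  [CompleteSpace H]

omit [CompleteSpace H] in
theorem normalize_close {η u : H} (hη : ‖η‖ = 1) {d : ℝ} (hu : ‖u - η‖ ≤ d) (hd : d ≤ 1 / 2) :
    u ≠ 0 ∧ ‖((‖u‖⁻¹ : ℝ) : ℂ) • u‖ = 1 ∧ ‖((‖u‖⁻¹ : ℝ) : ℂ) • u - η‖ ≤ 2 * d := by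
  have h0 : u ≠ 0 := by
    rintro rfl
    rw [zero_sub, norm_neg, hη] at hu
    linarith
  have hp : 0 < ‖u‖ := norm_pos_iff.2 h0
  have h2 : |‖u‖ - 1| ≤ d := by
    rw [← hη]
    exact (abs_norm_sub_norm_le _ _).trans hu
  have h3 : ‖((‖u‖⁻¹ : ℝ) : ℂ) • u - u‖ = |‖u‖ - 1| := by
    have e : ((‖u‖⁻¹ : ℝ) : ℂ) • u - u = ((‖u‖⁻¹ - 1 : ℝ) : ℂ) • u := by
      push_cast
      module
    rw [e, norm_smul, Complex.norm_real, Real.norm_eq_abs]
    calc |‖u‖⁻¹ - 1| * ‖u‖ = |‖u‖⁻¹ - 1| * |‖u‖| := by rw [abs_norm]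
      _ = |(‖u‖⁻¹ - 1) * ‖u‖| := (abs_mul _ _).symm
      _ = |‖u‖ - 1| := by rw [sub_mul, inv_mul_cancel₀ hp.ne', one_mul, abs_sub_comm]
  refine ⟨h0, ?_, ?_⟩
  · rw [norm_smul, Complex.norm_real, Real.norm_eq_abs, abs_of_pos (by positivity),
      inv_mul_cancel₀ hp.ne']
  · exact (norm_sub_le_norm_sub_add_norm_sub _ u _).trans (by linarith)

theorem apply_fixed (π : A →⋆ₐ[ℂ] (H →L[ℂ] H)) {g : A} (hg : IsStarProjection g) (z : ℂ) (η : H) :
    π g (z • π g η) = z • π g η := by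
  rw [map_smul]
  congr 1
  exact congrArg (fun T : H →L[ℂ] H => T η) (hg.map π).isIdempotentElem.eq

theorem vst_diff (π : A →⋆ₐ[ℂ] (H →L[ℂ] H)) {η η' : H} (hη : ‖η‖ = 1) (hη' : ‖η'‖ = 1) (a : A) :
    ‖vst π η' a - vst π η a‖ ≤ 2 * ‖a‖ * ‖η' - η‖ := by
  have e : vst π η' a - vst π η a = ⟪η' - η, π a η'⟫_ℂ + ⟪η, π a (η' - η)⟫_ℂ := by
    simp only [vst, map_sub, inner_sub_left, inner_sub_right]
    ring
  have hop : ∀ x, ‖π a x‖ ≤ ‖a‖ * ‖x‖ := fun x =>
    ((π a).le_opNorm x).trans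
      (mul_le_mul_of_nonneg_right (NonUnitalStarAlgHom.norm_apply_le π a) (norm_nonneg _))
  rw [e]
  refine (norm_add_le _ _).trans ?_
  have h1 := (norm_inner_le_norm (𝕜 := ℂ) (η' - η) (π a η')).trans
    (mul_le_mul_of_nonneg_left (hop η') (norm_nonneg _))
  have h2 := (norm_inner_le_norm (𝕜 := ℂ) η (π a (η' - η))).trans
    (mul_le_mul_of_nonneg_left (hop _) (norm_nonneg _))
  rw [hη'] at h1
  rw [hη] at h2
  linarith

theorem step (hmaj : MajStatement) : StepStatement := by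
  intro A _ T H _ _ _ π hπ N η hη hfix F ε hε
  classical
  set C : ℝ := 1 + ∑ a ∈ F, ‖a‖ with hC
  have hC0 : 1 ≤ C := le_add_of_nonneg_right (Finset.sum_nonneg fun a _ => norm_nonneg a)
  set d : ℝ := min (1 / 4) (ε / (12 * C)) with hd
  have hd0 : 0 < d := lt_min (by norm_num) (by positivity)
  have hd4 : d ≤ 1 / 4 := min_le_left _ _
  have hdε : d * (12 * C) ≤ ε := (le_div_iff₀ (by positivity)).1 (min_le_right _ _)
  have hN : T.φ N (Pk N N) = T.p N := T.p_spec N N le_rfl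
  -- first excision
  obtain ⟨n₁, hn₁, hn₁', g₁, hg₁, hg₁p, hr₁, hg₁η, hg₁F⟩ :=
    core hmaj T π hπ (Pk N N) (Pk_isStarProjection N N) hη (by rw [hN]; exact hfix) F (N + 1) d hd0
  obtain ⟨hu₁, hn1, hd1⟩ := normalize_close hη hg₁η (by linarith)
  set η₁ : H := ((‖π (T.φ n₁ g₁) η‖⁻¹ : ℝ) : ℂ) • π (T.φ n₁ g₁) η
  have hf₁ : π (T.φ n₁ g₁) η₁ = η₁ := apply_fixed π (hg₁.map _) _ _
  -- second excision, inside the first
  obtain ⟨n₂, hn₂, hn₂', g₂, hg₂, hg₂g, hr₂, hg₂η, -⟩ :=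
    core hmaj T π hπ g₁ hg₁ hn1 hf₁ ∅ (n₁ + 1) d hd0
  obtain ⟨-, hn2, hd2⟩ := normalize_close hn1 hg₂η (by linarith)
  set η₂ : H := ((‖π (T.φ n₂ g₂) η₁‖⁻¹ : ℝ) : ℂ) • π (T.φ n₂ g₂) η₁
  have hf₂ : π (T.φ n₂ g₂) η₂ = η₂ := apply_fixed π (hg₂.map _) _ _
  obtain ⟨G, hG, hrG⟩ := exists_lift T hn₂ g₁
  have hGp : IsStarProjection G := isProj_of_inj T (hG ▸ hg₁.map (T.φ n₁))
  have hgG : g₂ * G = g₂ := T.φ_inj n₂ (by rw [map_mul, hG, hg₂g])
  have hGN : G * Pk n₂ N = G := T.φ_inj n₂ (by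
    rw [map_mul, hG, T.p_spec N n₂ (by omega), ← hN, hg₁p])
  -- the dyadic rank between them
  have hpos : 1 ≤ rk g₁ := by
    rw [Nat.one_le_iff_ne_zero]
    intro h0
    have h1 : (g₁ : Euc n₁ →ₗ[ℂ] Euc n₁) = 0 :=
      LinearMap.range_eq_bot.1 (Submodule.finrank_eq_zero.1 h0)
    have h2 : g₁ = 0 := ContinuousLinearMap.coe_injective (by simpa using h1)
    simp [h2] at hu₁
  set L := Nat.log 2 (rk G) with hL
  have hG0 : rk G ≠ 0 := by
    rw [hrG]
    exact Nat.mul_ne_zero (by positivity) (by omega)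
  have hLlo : 2 ^ L ≤ rk G := Nat.pow_log_le_self 2 hG0
  have hLhi : rk G < 2 ^ (L + 1) := Nat.lt_pow_succ_log_self one_lt_two _
  have hGhi : rk G ≤ 2 ^ (n₂ - (N + 1)) := by
    rw [hrG]
    refine (Nat.mul_le_mul_left _ hr₁).trans (le_of_eq ?_)
    rw [← pow_add]
    congr 1
    omega
  have hL1 : L ≤ n₂ - (N + 1) :=
    (Nat.pow_le_pow_iff_right one_lt_two).1 (hLlo.trans hGhi)
  have hr2 : rk g₂ ≤ 2 ^ L := by
    have h1 : 2 * rk g₂ ≤ rk G := by
      rw [hrG]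
      calc 2 * rk g₂ ≤ 2 * 2 ^ (n₂ - (n₁ + 1)) := Nat.mul_le_mul_left _ hr₂
        _ = 2 ^ (n₂ - n₁) * 1 := by
          rw [mul_one, ← pow_succ']
          congr 1
          omega
        _ ≤ _ := Nat.mul_le_mul_left _ hpos
    rw [pow_succ] at hLhi
    omega
  set M := n₂ - L with hM
  have hML : n₂ - M = L := by omega
  obtain ⟨V, hV, hVN, hGf, hfg⟩ := mid_unitary (n := n₂) (N := N) (M := M) (by omega) (by omega)
    G g₂ hGp hg₂ hgG hGN (by rw [hML]; exact hr2) (by rw [hML]; exact hLlo)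
  refine ⟨M, by omega, T.φ n₂ V, Unitary.map_mem (T.φ n₂) hV, ?_, η₂, hn2, ?_, ?_, ?_⟩
  · rw [← T.p_spec N n₂ (by omega)]
    simpa using congrArg (T.φ n₂) hVN
  · calc ‖η₂ - η‖ ≤ ‖η₂ - η₁‖ + ‖η₁ - η‖ := norm_sub_le_norm_sub_add_norm_sub _ _ _
      _ ≤ 2 * d + 2 * d := add_le_add hd2 hd1
      _ ≤ ε := by nlinarith
  all_goals rw [← T.p_spec M n₂ (by omega), ← map_star, ← map_mul, ← map_mul]
  · conv_lhs => rw [← hf₂]
    have e := congrArg (fun x => π (T.φ n₂ x) η₂) hfg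
    simp only [map_mul, mul_apply_eq_comp] at e ⊢
    rw [e, hf₂]
  · intro a ha
    set f := V * Pk n₂ M * star V with hf
    have hfp : IsStarProjection f := by
      refine ⟨?_, ?_⟩
      · change f * f = f
        calc f * f = V * Pk n₂ M * (star V * V) * Pk n₂ M * star V := by
              simp only [hf, mul_assoc]
          _ = f := by
            rw [Unitary.star_mul_self_of_mem hV, mul_one, mul_assoc V,
              (Pk_isStarProjection n₂ M).isIdempotentElem.eq]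
      · change star f = f
        simp [hf, mul_assoc, (Pk_isStarProjection n₂ M).isSelfAdjoint.star_eq]
    have hfG : f * G = f := by
      simpa [hfp.isSelfAdjoint.star_eq, hGp.isSelfAdjoint.star_eq] using congrArg star hGf
    set P := T.φ n₂ f with hP
    set Q := T.φ n₂ G with hQ
    have hPQ : P * Q = P := by rw [hP, hQ, ← map_mul, hfG]
    have hQP : Q * P = P := by rw [hP, hQ, ← map_mul, hGf]
    have hPP : P * P = P := by rw [hP, ← map_mul, hfp.isIdempotentElem.eq]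
    have hest : ‖Q * a * Q - vst π η a • Q‖ ≤ d := hG ▸ hg₁F a ha
    have hP1 : ‖P‖ ≤ 1 := IsStarProjection.norm_le P (hfp.map _)
    have e : P * a * P - vst π η₂ a • P =
        P * (Q * a * Q - vst π η a • Q) * P + (vst π η a - vst π η₂ a) • P := by
      have e1 : P * (Q * a * Q) * P = P * a * P := by
        rw [← mul_assoc P, ← mul_assoc P, hPQ, mul_assoc _ Q, hQP]
      rw [mul_sub, sub_mul, e1, mul_smul_comm, smul_mul_assoc, hPQ, hPP, sub_smul]
      abel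
    change ‖P * a * P - vst π η₂ a • P‖ ≤ ε
    rw [e]
    refine (norm_add_le _ _).trans ?_
    have h1 : ‖P * (Q * a * Q - vst π η a • Q) * P‖ ≤ d := by
      refine (norm_mul_le _ _).trans ?_
      refine (mul_le_of_le_one_right (norm_nonneg _) hP1).trans ?_
      refine (norm_mul_le _ _).trans ?_
      exact (mul_le_of_le_one_left (norm_nonneg _) hP1).trans hest
    have h2 : ‖(vst π η a - vst π η₂ a) • P‖ ≤ 2 * ‖a‖ * (4 * d) := by
      rw [norm_smul, norm_sub_rev]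
      refine (mul_le_of_le_one_right (norm_nonneg _) hP1).trans ?_
      refine (vst_diff π hη hn2 a).trans ?_
      refine mul_le_mul_of_nonneg_left ?_ (by positivity)
      exact (norm_sub_le_norm_sub_add_norm_sub _ η₁ _).trans (by linarith)
    have haC : ‖a‖ ≤ C := by
      have := Finset.single_le_sum (f := fun a => ‖a‖) (fun b _ => norm_nonneg b) ha
      linarith
    nlinarith

end Vale.Agent.P070
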