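import Vale.Agent.P070.TowerFacts

/-! One excision inside a level projection of a tower. -/

noncomputable section

open scoped InnerProductSpace ComplexStarModule

namespace Vale.Agent.P070

variable {A : Type} [CStarAlgebra A] {H : Type} [NormedAddCommGroup H] [InnerProductSpace ℂ H]
  [CompleteSpace H]

/-- The vector functional. -/
def vst (π : A →⋆ₐ[ℂ] (H →L[ℂ] H)) (η : H) (a : A) : ℂ := ⟪η, π a η⟫_ℂ

theorem vst_add (π : A →⋆ₐ[ℂ] (H →L[ℂ] H)) (η : H) (a b : A) :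
    vst π η (a + b) = vst π η a + vst π η b := by
  simp [vst]

theorem vst_sub (π : A →⋆ₐ[ℂ] (H →L[ℂ] H)) (η : H) (a b : A) :
    vst π η (a - b) = vst π η a - vst π η b := by
  simp [vst]

theorem vst_sum {ι : Type*} (π : A →⋆ₐ[ℂ] (H →L[ℂ] H)) (η : H) (s : Finset ι) (f : ι → A) :
    vst π η (∑ i ∈ s, f i) = ∑ i ∈ s, vst π η (f i) := by
  simp [vst]

theorem vst_smul (π : A →⋆ₐ[ℂ] (H →L[ℂ] H)) (η : H) (z : ℂ) (a : A) :
    vst π η (z • a) = z * vst π η a := by
  simp [vst]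

theorem vst_one (π : A →⋆ₐ[ℂ] (H →L[ℂ] H)) {η : H} (hη : ‖η‖ = 1) : vst π η 1 = 1 := by
  simp [vst, hη]

theorem vst_star_mul (π : A →⋆ₐ[ℂ] (H →L[ℂ] H)) (η : H) (c : A) :
    vst π η (star c * c) = ((‖π c η‖ ^ 2 : ℝ) : ℂ) := by
  rw [vst, map_mul, map_star, ContinuousLinearMap.star_eq_adjoint,
    mul_apply_eq_comp, ContinuousLinearMap.adjoint_inner_right]
  simp [inner_self_eq_norm_sq_to_K]

theorem inner_adj_of_sa (π : A →⋆ₐ[ℂ] (H →L[ℂ] H)) {a : A} (ha : IsSelfAdjoint a) (x y : H) :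
    ⟪π a x, y⟫_ℂ = ⟪x, π a y⟫_ℂ :=
  (ha.map π).isSymmetric x y

theorem vst_conj_sa (π : A →⋆ₐ[ℂ] (H →L[ℂ] H)) (η : H) {a : A} (ha : IsSelfAdjoint a) :
    ((vst π η a).re : ℂ) = vst π η a := by
  apply Complex.conj_eq_iff_re.1
  rw [vst, inner_conj_symm, inner_adj_of_sa π ha]

theorem exists_lift (T : Tower A) {n m : ℕ} (h : n ≤ m) (X : Euc n →L[ℂ] Euc n) :
    ∃ Y, T.φ m Y = T.φ n X ∧ rk Y = 2 ^ (m - n) * rk X := by
  induction m, h using Nat.le_induction with
  | base => exact ⟨X, rfl, by simp⟩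
  | succ m hm ih =>
    obtain ⟨Y, hY, hr⟩ := ih
    obtain ⟨Z, hZ, hr'⟩ := T.φ_up m Y
    refine ⟨Z, hZ.trans hY, ?_⟩
    rw [hr', hr, Nat.succ_sub hm, pow_succ]
    ring

theorem map_real (T : Tower A) (m : ℕ) (e : ℝ) (X : Euc m →L[ℂ] Euc m) :
    T.φ m (e • X) = e • T.φ m X := by
  rw [← algebraMap_smul ℂ e X, map_smul, algebraMap_smul]

instance eucStarModule (n : ℕ) : StarModule ℝ (Euc n →L[ℂ] Euc n) :=
  ⟨fun e X => by
    rw [← algebraMap_smul ℂ e X, star_smul, ← algebraMap_smul ℂ (star e) (star X)]; simp⟩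

theorem sa_shift {n : ℕ} {X : Euc n →L[ℂ] Euc n} (hX : IsSelfAdjoint X) (e : ℝ) :
    IsSelfAdjoint (X + e • (1 : Euc n →L[ℂ] Euc n)) :=
  by
  refine IsSelfAdjoint.add (R := Euc n →L[ℂ] Euc n) ?_ ?_
  · exact hX
  · exact (IsSelfAdjoint.all e).smul (IsSelfAdjoint.one _)

theorem euc_spectrum_finite {n : ℕ} (X : Euc n →L[ℂ] Euc n) : (spectrum ℝ X).Finite := by
  have h : (spectrum ℂ X).Finite := by
    rw [← AlgEquiv.spectrum_eq (Module.End.toContinuousLinearMap (𝕜 := ℂ) (Euc n)).symm X]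
    exact Module.End.finite_spectrum _
  rw [← spectrum.preimage_algebraMap ℂ]
  exact h.preimage (FaithfulSMul.algebraMap_injective ℝ ℂ).injOn

theorem isProj_of_inj (T : Tower A) {n : ℕ} {g : Euc n →L[ℂ] Euc n}
    (hg : IsStarProjection (T.φ n g)) : IsStarProjection g where
  isIdempotentElem := T.φ_inj n (by simpa using hg.isIdempotentElem.eq)
  isSelfAdjoint := T.φ_inj n (by simpa [map_star] using hg.isSelfAdjoint.star_eq)

section Order

variable [PartialOrder A] [StarOrderedRing A]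

theorem vst_mono (π : A →⋆ₐ[ℂ] (H →L[ℂ] H)) (η : H) {a b : A} (hab : a ≤ b) :
    (vst π η a).re ≤ (vst π η b).re := by
  obtain ⟨d, hd⟩ := CStarAlgebra.nonneg_iff_eq_star_mul_self.1 (sub_nonneg.2 hab)
  have := congrArg (fun z => (vst π η z).re) hd
  simp only [vst_sub, vst_star_mul, Complex.sub_re, Complex.ofReal_re] at this
  nlinarith [sq_nonneg ‖π d η‖]

/-- A level element dominating a nonnegative element, with nearly the same value. -/
theorem level_above (T : Tower A) (π : A →⋆ₐ[ℂ] (H →L[ℂ] H)) {η : H} (hη : ‖η‖ = 1) {b₀ : A}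
    (hb₀ : 0 ≤ b₀) (e : ℝ) (he : 0 < e) (l : ℕ) :
    ∃ m, l ≤ m ∧ ∃ B : Euc m →L[ℂ] Euc m, IsSelfAdjoint B ∧ b₀ ≤ T.φ m B ∧
      (vst π η (T.φ m B)).re ≤ (vst π η b₀).re + 2 * e := by
  obtain ⟨y, hy, hyd⟩ : ∃ y ∈ ⋃ k, Set.range (T.φ k), dist b₀ y < e :=
    T.dense.exists_dist_lt b₀ he
  obtain ⟨k, Y, rfl⟩ := Set.mem_iUnion.1 hy
  set m := max k l with hm
  obtain ⟨Y', hY', -⟩ := exists_lift T (show k ≤ m from le_max_left k l) Y
  set Y₁ : Euc m →L[ℂ] Euc m := (ℜ Y' : Euc m →L[ℂ] Euc m) with hY₁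
  have hsa : IsSelfAdjoint Y₁ := (ℜ Y').2
  have hy1 : IsSelfAdjoint (T.φ m Y₁ - b₀) := (hsa.map (T.φ m)).sub (IsSelfAdjoint.of_nonneg hb₀)
  have hy2 : ‖T.φ m Y₁ - b₀‖ ≤ e := by
    have h1 : T.φ m Y₁ - b₀ = (ℜ (T.φ k Y - b₀) : A) := by
      rw [hY₁, map_sub (realPart : A →ₗ[ℝ] selfAdjoint A), AddSubgroupClass.coe_sub,
        (IsSelfAdjoint.of_nonneg hb₀).coe_realPart, realPart_apply_coe, realPart_apply_coe,
        map_real, map_add, map_star, ← hY']
    rw [h1]
    exact (realPart.norm_le (T.φ k Y - b₀)).trans ((dist_eq_norm _ _).symm.trans_le (dist_comm b₀ (T.φ k Y) ▸ hyd.le))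
  refine ⟨m, le_max_right _ _, Y₁ + e • (1 : Euc m →L[ℂ] Euc m),
    sa_shift hsa e, ?_, ?_⟩
  · rw [map_add, map_real, map_one, ← sub_nonneg]
    have h2 : 0 ≤ (e - ‖T.φ m Y₁ - b₀‖) • (1 : A) := smul_nonneg (sub_nonneg.2 hy2) zero_le_one
    have h3 := sub_nonneg.2 hy1.neg_algebraMap_norm_le_self
    rw [Algebra.algebraMap_eq_smul_one] at h3
    have := add_nonneg h2 h3
    convert this using 1
    rw [sub_smul]
    abel
  · have h1 : (vst π η (T.φ m (Y₁ + e • 1))).re = (vst π η b₀).re +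
        (vst π η (T.φ m Y₁ - b₀)).re + e := by
      rw [map_add, map_real, map_one, vst_add, vst_sub, ← Complex.coe_smul, vst_smul,
        vst_one π hη]
      simp only [Complex.add_re, Complex.sub_re, mul_one, Complex.ofReal_re]
      ring
    have h2 : (vst π η (T.φ m Y₁ - b₀)).re ≤ e := by
      refine (Complex.re_le_norm _).trans ((norm_inner_le_norm _ _).trans ?_)
      rw [hη, one_mul]
      refine (ContinuousLinearMap.le_opNorm _ _).trans ?_
      rw [hη, mul_one]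
      exact (NonUnitalStarAlgHom.norm_apply_le π _).trans hy2
    linarith

/-- The part of the level projection R on which the level element B is small. -/
theorem spectral_proj (T : Tower A) {m : ℕ} {B R : Euc m →L[ℂ] Euc m} (hB : IsSelfAdjoint B)
    (hR : IsStarProjection R) (hB0 : 0 ≤ T.φ m B) (τ : ℝ) (_hτ0 : 0 < τ) (hτ1 : τ ≤ 1) :
    ∃ g : Euc m →L[ℂ] Euc m, IsStarProjection g ∧ T.φ m g * T.φ m R = T.φ m g ∧
      T.φ m g * T.φ m B * T.φ m g ≤ τ • T.φ m g ∧
      τ • (1 - T.φ m g) ≤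
        T.φ m R * T.φ m B * T.φ m R + (2 : ℝ) • (1 - T.φ m R) := by
  have hRp : IsStarProjection (T.φ m R) := hR.map _
  set X : Euc m →L[ℂ] Euc m := R * B * R + (2 : ℝ) • (1 - R) with hX
  have hXsa : IsSelfAdjoint X := by
    refine IsSelfAdjoint.add ?_ ((IsSelfAdjoint.all 2).smul hR.one_sub.isSelfAdjoint)
    simpa [hR.isSelfAdjoint.star_eq] using hB.conjugate R
  set x : A := T.φ m X with hx
  have hxe : x = T.φ m R * T.φ m B * T.φ m R + (2 : ℝ) • (1 - T.φ m R) := by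
    rw [hx, hX, map_add, map_mul, map_mul, map_real, map_sub, map_one]
  have hxsa : IsSelfAdjoint x := hXsa.map _
  have hspX : (spectrum ℝ X).Finite := euc_spectrum_finite X
  have hspx : (spectrum ℝ x).Finite := by
    rw [hx, hXsa.map_spectrum_real (T.φ m) (T.φ_inj m)]
    exact hspX
  have hcont : ∀ f : ℝ → ℝ, ContinuousOn f (spectrum ℝ x) := fun f => hspx.continuousOn f
  let f : ℝ → ℝ := fun s => if s ≤ τ then 1 else 0
  let h : ℝ → ℝ := fun s => f s / (s - 2)
  set g : Euc m →L[ℂ] Euc m := cfc f X with hg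
  set G : A := T.φ m g with hG
  have hgG : G = cfc f x :=
    StarAlgHom.map_cfc (T.φ m) f X (hspX.continuousOn f) (map_continuous _) hXsa hxsa
  have hGG : G * G = G := by
    rw [hgG, ← cfc_mul f f x (hcont _) (hcont _)]
    refine cfc_congr fun s _ => ?_
    simp only [f]
    split_ifs <;> norm_num
  have hGp : IsStarProjection G := ⟨hGG, hgG ▸ cfc_predicate f x⟩
  have hx0 : 0 ≤ x := by
    rw [hxe]
    refine add_nonneg ?_ (smul_nonneg zero_le_two hRp.one_sub.nonneg)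
    have := star_left_conjugate_nonneg hB0 (T.φ m R)
    rwa [hRp.isSelfAdjoint.star_eq] at this
  have hRR : T.φ m R * T.φ m R = T.φ m R := hRp.isIdempotentElem.eq
  have hR0 : T.φ m R * (1 - T.φ m R) = 0 := by rw [mul_sub, hRR, mul_one, sub_self]
  have hxR : (x - (2 : ℝ) • 1) * (1 - T.φ m R) = 0 := by
    rw [hxe, add_sub_assoc, ← smul_sub, sub_sub_cancel_left, add_mul, mul_assoc, hR0, mul_zero,
      zero_add, smul_mul_assoc, neg_mul, hR0, neg_zero, smul_zero]
  have hGR : G * T.φ m R = G := by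
    have h1 : G = cfc h x * (x - (2 : ℝ) • 1) := by
      have e1 : cfc (fun s : ℝ => s - 2) x = x - (2 : ℝ) • 1 := by
        rw [cfc_sub (fun s : ℝ => s) (fun _ => (2 : ℝ)) x, cfc_id' ℝ x, cfc_const _ x,
          Algebra.algebraMap_eq_smul_one]
      rw [hgG, ← e1, ← cfc_mul h (fun s : ℝ => s - 2) x (hcont _) (hcont _)]
      refine cfc_congr fun s _ => ?_
      simp only [h, f]
      split_ifs with hs
      · rw [div_mul_cancel₀]
        linarith
      · simp
    have h2 : G * (1 - T.φ m R) = 0 := by rw [h1, mul_assoc, hxR, mul_zero]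
    rw [mul_sub, mul_one, sub_eq_zero] at h2
    exact h2.symm
  refine ⟨g, isProj_of_inj T hGp, hGR, ?_, ?_⟩
  · have h1 : G * x * G = G * T.φ m B * G := by
      have hRG : T.φ m R * G = G := by
        simpa [hRp.isSelfAdjoint.star_eq, hGp.isSelfAdjoint.star_eq] using congrArg star hGR
      have hG0 : G * (1 - T.φ m R) = 0 := by rw [mul_sub, mul_one, hGR, sub_self]
      rw [hxe, mul_add, add_mul, mul_smul_comm, hG0, smul_zero, zero_mul, add_zero, ← mul_assoc,
        ← mul_assoc, hGR, mul_assoc _ (T.φ m R) G, hRG]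
    rw [← h1]
    have e1 : G * x * G = cfc (fun s => f s * s * f s) x := by
      rw [cfc_mul (fun s => f s * s) f x (hcont _) (hcont _),
        cfc_mul f (fun s : ℝ => s) x (hcont _) (hcont _), cfc_id' ℝ x, hgG]
    have e2 : τ • G = cfc (fun s => τ • f s) x := by rw [cfc_smul τ f x (hcont _), hgG]
    rw [e1, e2]
    refine cfc_mono (fun s _ => ?_) (hcont _) (hcont _)
    simp only [f, smul_eq_mul]
    split_ifs with h <;> simp
    linarith
  · rw [← hxe]
    have e1 : τ • (1 - G) = cfc (fun s => τ • (1 - f s)) x := by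
      rw [cfc_smul τ (fun s => 1 - f s) x (hcont _),
        cfc_sub (fun _ => (1 : ℝ)) f x (hcont _) (hcont _), cfc_const_one ℝ x, hgG]
    rw [e1]
    conv_rhs => rw [← cfc_id' ℝ x]
    refine cfc_mono (fun s hs => ?_) (hcont _) (hcont _)
    have hs0 : 0 ≤ s := spectrum_nonneg_of_nonneg hx0 hs
    simp only [f, smul_eq_mul]
    split_ifs with h <;> simp <;> linarith

/-- Two-sided order estimates on a compression give a norm estimate. -/
theorem norm_compress_le {G a : A} (hG : IsStarProjection G) {v k : ℝ} (hk : 0 ≤ k)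
    (hu : G * a * G ≤ (v + k) • G) (hl : -(G * a * G) ≤ (-v + k) • G) :
    ‖G * a * G - v • G‖ ≤ 3 * k := by
  set z := G * a * G - v • G with hz
  have hz1 : 0 ≤ z + k • G := by
    have := sub_nonneg.2 hl
    convert this using 1
    rw [hz]; module
  have hz2 : z + k • G ≤ (2 * k) • G := by
    rw [← sub_nonneg]
    have := sub_nonneg.2 hu
    convert this using 1
    rw [hz]; module
  have hz3 := CStarAlgebra.norm_le_norm_of_nonneg_of_le hz1 hz2
  have hn : ‖G‖ ≤ 1 := IsStarProjection.norm_le G hG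
  have hk2 : ‖(2 * k) • G‖ ≤ 2 * k := by
    rw [norm_smul, Real.norm_of_nonneg (by positivity)]
    exact mul_le_of_le_one_right (by positivity) hn
  have hk1 : ‖k • G‖ ≤ k := by
    rw [norm_smul, Real.norm_of_nonneg hk]
    exact mul_le_of_le_one_right hk hn
  have : ‖z‖ ≤ ‖z + k • G‖ + ‖k • G‖ := norm_le_add_norm_add z (k • G)
  linarith

theorem core_sa (hmaj : MajStatement) (T : Tower A) (π : A →⋆ₐ[ℂ] (H →L[ℂ] H)) (hπ : Irred π)
    {n : ℕ} (r : Euc n →L[ℂ] Euc n) (hr : IsStarProjection r) {η : H} (hη : ‖η‖ = 1)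
    (hfix : π (T.φ n r) η = η) (S : Finset A) (hS : ∀ a ∈ S, IsSelfAdjoint a) (l : ℕ)
    (δ : ℝ) (hδ : 0 < δ) :
    ∃ m, n ≤ m ∧ l ≤ m ∧ ∃ g : Euc m →L[ℂ] Euc m, IsStarProjection g ∧
      T.φ m g * T.φ n r = T.φ m g ∧ ‖π (T.φ m g) η - η‖ ≤ δ ∧
      ∀ a ∈ S, ‖T.φ m g * a * T.φ m g - vst π η a • T.φ m g‖ ≤ δ := by
  classical
  set τ : ℝ := min 1 (δ / 8) with hτ
  have hτ0 : 0 < τ := lt_min one_pos (by positivity)
  have hτ1 : τ ≤ 1 := min_le_left _ _
  have hτ2 : τ ≤ δ / 8 := min_le_right _ _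
  let S' := S ∪ S.image (fun a => -a)
  have hS' : ∀ a ∈ S', IsSelfAdjoint a := by
    intro a ha
    simp only [S', Finset.mem_union, Finset.mem_image] at ha
    rcases ha with ha | ⟨b, hb, rfl⟩
    · exact hS a ha
    · exact (hS b hb).neg
  set δ₀ : ℝ := min (δ / 8) (τ * δ ^ 2 / (S'.card + 1)) with hδ₀
  have hδ₀0 : 0 < δ₀ := lt_min (by positivity) (by positivity)
  have hmj : ∀ a ∈ S', ∃ c : A, ∃ t : ℝ, t < (vst π η a).re + δ₀ ∧ ‖π c η‖ ^ 2 < δ₀ ∧
      a ≤ t • (1 : A) + star c * c := by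
    intro a ha
    obtain ⟨c, d, t, ht, hc, hd⟩ := hmaj A H π hπ a (hS' a ha) η hη δ₀ hδ₀0
    refine ⟨c, t, ht, hc, ?_⟩
    rw [← sub_nonneg, ← Complex.coe_smul, hd]
    exact star_mul_self_nonneg d
  choose! c t ht hc hle using hmj
  set b₀ : A := ∑ a ∈ S', star (c a) * c a with hb₀
  have hb₀0 : 0 ≤ b₀ := Finset.sum_nonneg fun a _ => star_mul_self_nonneg _
  have hb₀v : (vst π η b₀).re ≤ S'.card * δ₀ := by
    rw [hb₀, vst_sum, Complex.re_sum]
    calc ∑ a ∈ S', (vst π η (star (c a) * c a)).re ≤ ∑ _a ∈ S', δ₀ := by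
          refine Finset.sum_le_sum fun a ha => ?_
          rw [vst_star_mul, Complex.ofReal_re]
          exact (hc a ha).le
      _ = _ := by simp
  obtain ⟨m, hm, B, hB, hb₀B, hBv⟩ :=
    level_above T π hη hb₀0 (δ₀ / 2) (by positivity) (max n l)
  obtain ⟨R, hR, -⟩ := exists_lift T (show n ≤ m by omega) r
  have hRp : IsStarProjection (T.φ m R) := hR ▸ hr.map (T.φ n)
  obtain ⟨g, hg, hgR, hgB, hg1⟩ :=
    spectral_proj T hB (isProj_of_inj T hRp) (hb₀0.trans hb₀B) τ hτ0 hτ1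
  set G : A := T.φ m g with hG
  have hGp : IsStarProjection G := hg.map _
  refine ⟨m, by omega, by omega, g, hg, by rw [← hR]; exact hgR, ?_, ?_⟩
  · have hR1 : π (T.φ m R) η = η := by rw [hR, hfix]
    have e3 : vst π η (T.φ m R * T.φ m B * T.φ m R) = vst π η (T.φ m B) := by
      simp only [vst, map_mul, mul_apply_eq_comp, hR1]
      rw [← inner_adj_of_sa π hRp.isSelfAdjoint, hR1]
    have e2 : vst π η (T.φ m R) = 1 := by simp [vst, hR1, hη]
    have h2 := vst_mono π η hg1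
    rw [vst_add, e3, ← Complex.coe_smul (2 : ℝ), vst_smul, vst_sub, vst_one π hη, e2, sub_self,
      mul_zero, add_zero, ← Complex.coe_smul, vst_smul, Complex.re_ofReal_mul] at h2
    have h3 : ‖π G η - η‖ ^ 2 = (vst π η (1 - G)).re := by
      have h := vst_star_mul π η (1 - G)
      rw [hGp.one_sub.isSelfAdjoint.star_eq, hGp.one_sub.isIdempotentElem.eq] at h
      rw [h, Complex.ofReal_re, map_sub, map_one, norm_sub_rev]
      rfl
    have h4 : (vst π η (T.φ m B)).re ≤ τ * δ ^ 2 := by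
      have h : δ₀ * (S'.card + 1) ≤ τ * δ ^ 2 :=
        (le_div_iff₀ (by positivity)).1 (min_le_right _ _)
      linarith
    have h5 : ‖π G η - η‖ ^ 2 ≤ δ ^ 2 := by
      rw [h3]
      exact le_of_mul_le_mul_left (h2.trans h4) hτ0
    exact (pow_le_pow_iff_left₀ (norm_nonneg _) hδ.le two_ne_zero).1 h5
  · intro a ha
    have upper : ∀ b ∈ S', G * b * G ≤ ((vst π η b).re + (δ₀ + τ)) • G := by
      intro b hb
      have h1 : b ≤ t b • (1 : A) + T.φ m B := by
        refine (hle b hb).trans (add_le_add le_rfl (le_trans ?_ hb₀B))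
        exact Finset.single_le_sum (f := fun a => star (c a) * c a)
          (fun _ _ => star_mul_self_nonneg _) hb
      have h2 := star_left_conjugate_le_conjugate h1 G
      rw [hGp.isSelfAdjoint.star_eq, mul_add, add_mul, mul_smul_comm, mul_one, smul_mul_assoc,
        hGp.isIdempotentElem.eq] at h2
      refine h2.trans ((add_le_add le_rfl hgB).trans ?_)
      rw [← add_smul]
      exact smul_le_smul_of_nonneg_right (by linarith [ht b hb]) hGp.nonneg
    have hu := upper a (Finset.mem_union_left _ ha)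
    have hl := upper (-a) (Finset.mem_union_right _ (Finset.mem_image_of_mem _ ha))
    have hneg : (vst π η (-a)).re = -(vst π η a).re := by simp [vst]
    rw [hneg, mul_neg, neg_mul] at hl
    have hk : 0 ≤ δ₀ + τ := by positivity
    rw [← vst_conj_sa π η (hS a ha), Complex.coe_smul]
    refine (norm_compress_le hGp hk hu hl).trans ?_
    have : δ₀ ≤ δ / 8 := min_le_left _ _
    linarith

end Order

theorem core (hmaj : MajStatement) (T : Tower A) (π : A →⋆ₐ[ℂ] (H →L[ℂ] H)) (hπ : Irred π)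
    {n : ℕ} (r : Euc n →L[ℂ] Euc n) (hr : IsStarProjection r) {η : H} (hη : ‖η‖ = 1)
    (hfix : π (T.φ n r) η = η) (F : Finset A) (l : ℕ) (δ : ℝ) (hδ : 0 < δ) :
    ∃ m, n ≤ m ∧ l ≤ m ∧ ∃ g : Euc m →L[ℂ] Euc m, IsStarProjection g ∧
      T.φ m g * T.φ n r = T.φ m g ∧ rk g ≤ 2 ^ (m - l) ∧ ‖π (T.φ m g) η - η‖ ≤ δ ∧
      ∀ a ∈ F, ‖T.φ m g * a * T.φ m g - vst π η a • T.φ m g‖ ≤ δ := by
  classical
  let _ := CStarAlgebra.spectralOrder A
  have := CStarAlgebra.spectralOrderedRing A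
  let b := EuclideanSpace.basisFun (Fin (2 ^ l)) ℂ
  let E : Fin (2 ^ l) → (Euc l →L[ℂ] Euc l) := fun i =>
    InnerProductSpace.rankOne ℂ (b i) (b i)
  let F' := F ∪ Finset.univ.image (fun i => T.φ l (E i))
  let S := F'.image (fun a => (ℜ a : A)) ∪ F'.image (fun a => (ℑ a : A))
  set δ' : ℝ := min (δ / 2) ((2 ^ l : ℝ)⁻¹ / 4) with hδ'
  have hδ'0 : 0 < δ' := lt_min (by positivity) (by positivity)
  obtain ⟨m, hnm, hlm, g, hg, hgr, hgη, hga⟩ := core_sa hmaj T π hπ r hr hη hfix S (by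
    intro a ha
    simp only [S, Finset.mem_union, Finset.mem_image] at ha
    rcases ha with ⟨x, -, rfl⟩ | ⟨x, -, rfl⟩
    · exact (ℜ x).2
    · exact (ℑ x).2) l δ' hδ'0
  set G : A := T.φ m g with hG
  have est : ∀ a ∈ F', ‖G * a * G - vst π η a • G‖ ≤ 2 * δ' := by
    intro a ha
    have h1 := hga (ℜ a : A) (Finset.mem_union_left _ (Finset.mem_image_of_mem _ ha))
    have h2 := hga (ℑ a : A) (Finset.mem_union_right _ (Finset.mem_image_of_mem _ ha))
    have e : G * a * G - vst π η a • G = (G * (ℜ a : A) * G - vst π η (ℜ a : A) • G) +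
        Complex.I • (G * (ℑ a : A) * G - vst π η (ℑ a : A) • G) := by
      conv_lhs => rw [← realPart_add_I_smul_imaginaryPart a]
      rw [mul_add, add_mul, mul_smul_comm, smul_mul_assoc, vst_add, vst_smul]
      module
    rw [e]
    refine (norm_add_le _ _).trans ?_
    rw [norm_smul, Complex.norm_I, one_mul]
    linarith
  have hδδ : δ' ≤ δ / 2 := min_le_left _ _
  refine ⟨m, hnm, hlm, g, hg, hgr, ?_, hgη.trans (by linarith), fun a ha =>
    (est a (Finset.mem_union_left _ ha)).trans (by linarith)⟩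
  -- the rank bound
  obtain ⟨i, hi⟩ : ∃ i, (2 ^ l : ℝ)⁻¹ ≤ ‖vst π η (T.φ l (E i))‖ := by
    by_contra hcon
    push Not at hcon
    have h1 : ∑ i, vst π η (T.φ l (E i)) = 1 := by
      rw [← vst_sum, ← map_sum]
      have : ∑ i, E i = 1 := b.sum_rankOne_eq_id
      rw [this, map_one, vst_one π hη]
    have h2 : (1 : ℝ) ≤ ∑ i, ‖vst π η (T.φ l (E i))‖ := by
      calc (1 : ℝ) = ‖∑ i, vst π η (T.φ l (E i))‖ := by rw [h1, norm_one]
        _ ≤ _ := norm_sum_le _ _
    have h3 : ∑ i, ‖vst π η (T.φ l (E i))‖ < ∑ _i : Fin (2 ^ l), (2 ^ l : ℝ)⁻¹ :=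
      Finset.sum_lt_sum_of_nonempty Finset.univ_nonempty fun i _ => hcon i
    simp at h3
    linarith
  obtain ⟨E', hE', hrE⟩ := exists_lift T hlm (E i)
  have hE1 : rk (E i) ≤ 1 := by
    refine (Submodule.finrank_mono (show LinearMap.range ((E i : Euc l →L[ℂ] Euc l) :
      Euc l →ₗ[ℂ] Euc l) ≤ Submodule.span ℂ {b i} from ?_)).trans ?_
    · rintro _ ⟨x, rfl⟩
      exact Submodule.mem_span_singleton.2 ⟨⟪b i, x⟫_ℂ, by simp [E]⟩
    · exact (finrank_span_singleton (b.orthonormal.ne_zero i)).le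
  set z := vst π η (T.φ l (E i)) with hz
  have herr : ‖g * E' * g - z • g‖ ≤ 2 * δ' := by
    rw [← NonUnitalStarAlgHom.norm_map (T.φ m) (T.φ_inj m)]
    rw [map_sub, map_mul, map_mul, map_smul, hE']
    exact est _ (Finset.mem_union_right _ (Finset.mem_image_of_mem _ (Finset.mem_univ i)))
  let L : LinearMap.range (g : Euc m →ₗ[ℂ] Euc m) →ₗ[ℂ]
      LinearMap.range (E' : Euc m →ₗ[ℂ] Euc m) :=
    (LinearMap.rangeRestrict (E' : Euc m →ₗ[ℂ] Euc m)).comp (Submodule.subtype _)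
  have hL : Function.Injective L := by
    rw [injective_iff_map_eq_zero]
    intro x hx
    have hgx : g (x : Euc m) = x := by
      obtain ⟨w, hw⟩ := x.2
      rw [← hw]
      change g (g w) = g w
      exact congrArg (fun T : Euc m →L[ℂ] Euc m => T w) hg.isIdempotentElem.eq
    have hEx : E' (x : Euc m) = 0 := congrArg Subtype.val hx
    have h1 := (g * E' * g - z • g).le_opNorm (x : Euc m)
    have h2 : (g * E' * g - z • g) (x : Euc m) = -(z • (x : Euc m)) := by
      simp [mul_apply_eq_comp, hgx, hEx]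
    rw [h2, norm_neg, norm_smul] at h1
    have h3 : 0 < (2 ^ l : ℝ)⁻¹ := by positivity
    have h4 : δ' ≤ (2 ^ l : ℝ)⁻¹ / 4 := min_le_right _ _
    have h5 : ‖(x : Euc m)‖ = 0 := by nlinarith [norm_nonneg (x : Euc m)]
    exact Subtype.ext (norm_eq_zero.1 h5)
  refine (LinearMap.finrank_le_finrank_of_injective hL).trans ?_
  refine le_trans (le_of_eq hrE) ?_
  exact (Nat.mul_le_mul_left _ hE1).trans (le_of_eq (mul_one _))

end Vale.Agent.P070
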